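import Vale.Agent.Lib.P329.Defs

/-!
Closure properties of the class of languages of generalized star height at most `n`.
-/

namespace Vale.Agent.P329

universe u

variable {α : Type u} {n : ℕ}

theorem HeightLE.mono {m n : ℕ} (h : m ≤ n) {L : Language α} (hL : HeightLE m L) :
    HeightLE n L := by
  obtain ⟨P, hP, hPh⟩ := hL
  exact ⟨P, hP, hPh.trans h⟩

theorem HeightLE.congr {n : ℕ} {p q : List α → Prop} (hp : HeightLE n ({w | p w} : Language α))
    (h : ∀ w, p w ↔ q w) : HeightLE n ({w | q w} : Language α) := by
  have : p = q := funext fun w => propext (h w)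
  rw [← this]
  exact hp

theorem HeightLE.mul {n : ℕ} {L M : Language α} (hL : HeightLE n L) (hM : HeightLE n M) :
    HeightLE n (L * M) := by
  obtain ⟨P, hP, hPh⟩ := hL
  obtain ⟨Q, hQ, hQh⟩ := hM
  exact ⟨GRE.comp P Q, by rw [GRE.lang, hP, hQ], max_le hPh hQh⟩

theorem HeightLE.or {n : ℕ} {p q : List α → Prop} (hp : HeightLE n ({w | p w} : Language α))
    (hq : HeightLE n ({w | q w} : Language α)) :
    HeightLE n ({w | p w ∨ q w} : Language α) := by
  obtain ⟨P, hP, hPh⟩ := hp
  obtain ⟨Q, hQ, hQh⟩ := hq
  refine ⟨GRE.plus P Q, ?_, max_le hPh hQh⟩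
  rw [GRE.lang, hP, hQ]
  rfl

theorem HeightLE.not {n : ℕ} {p : List α → Prop} (hp : HeightLE n ({w | p w} : Language α)) :
    HeightLE n ({w | ¬ p w} : Language α) := by
  obtain ⟨P, hP, hPh⟩ := hp
  refine ⟨GRE.compl P, ?_, hPh⟩
  rw [GRE.lang, hP]
  rfl

theorem HeightLE.and {n : ℕ} {p q : List α → Prop} (hp : HeightLE n ({w | p w} : Language α))
    (hq : HeightLE n ({w | q w} : Language α)) :
    HeightLE n ({w | p w ∧ q w} : Language α) := by
  refine (HeightLE.not (HeightLE.or (HeightLE.not hp) (HeightLE.not hq))).congr fun w => ?_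
  rw [not_or, not_not, not_not]

/-- A constant condition. -/
theorem HeightLE.const (n : ℕ) (P : Prop) : HeightLE n ({w | P} : Language α) := by
  have h0 : HeightLE n ({w | False} : Language α) := ⟨GRE.zero, rfl, Nat.zero_le n⟩
  by_cases hP : P
  · exact (HeightLE.not h0).congr fun w => by simp [hP]
  · exact h0.congr fun w => by simp [hP]

theorem HeightLE.exists_finset {n : ℕ} {ι : Type*} (s : Finset ι) {p : ι → List α → Prop}
    (h : ∀ i ∈ s, HeightLE n ({w | p i w} : Language α)) :
    HeightLE n ({w | ∃ i ∈ s, p i w} : Language α) := by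
  classical
  induction s using Finset.induction_on with
  | empty => exact (HeightLE.const n False).congr fun w => by simp
  | insert i s hi ih =>
    refine (HeightLE.or (h i (Finset.mem_insert_self i s))
      (ih fun j hj => h j (Finset.mem_insert_of_mem hj))).congr fun w => ?_
    simp

theorem HeightLE.exists_finite {n : ℕ} {ι : Type*} [Finite ι] {p : ι → List α → Prop}
    (h : ∀ i, HeightLE n ({w | p i w} : Language α)) :
    HeightLE n ({w | ∃ i, p i w} : Language α) := by
  have := Fintype.ofFinite ι
  refine (HeightLE.exists_finset Finset.univ fun i _ => h i).congr fun w => ?_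
  simp

theorem HeightLE.forall_finite {n : ℕ} {ι : Type*} [Finite ι] {p : ι → List α → Prop}
    (h : ∀ i, HeightLE n ({w | p i w} : Language α)) :
    HeightLE n ({w | ∀ i, p i w} : Language α) := by
  refine (HeightLE.not (HeightLE.exists_finite fun i => HeightLE.not (h i))).congr fun w => ?_
  rw [not_exists]
  exact forall_congr' fun i => not_not

/-- The language consisting of a single word. -/
theorem HeightLE.word (n : ℕ) (v : List α) : HeightLE n ({v} : Language α) := by
  induction v with
  | nil => exact ⟨GRE.one, rfl, Nat.zero_le n⟩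
  | cons a v ih =>
    have h1 : HeightLE n ({[a]} : Language α) := ⟨GRE.letter a, rfl, Nat.zero_le n⟩
    have h2 : ({a :: v} : Language α) = ({[a]} : Language α) * ({v} : Language α) := by
      ext w
      rw [Language.mem_mul]
      constructor
      · intro hw
        exact ⟨[a], rfl, v, rfl, hw.symm⟩
      · rintro ⟨x, hx, y, hy, rfl⟩
        obtain rfl : x = [a] := hx
        obtain rfl : y = v := hy
        rfl
    rw [h2]
    exact h1.mul ih

/-- Words of length one whose letter satisfies a condition. -/
theorem HeightLE.letters [Finite α] (n : ℕ) (p : α → Prop) :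
    HeightLE n ({w | ∃ a, p a ∧ w = [a]} : Language α) :=
  HeightLE.exists_finite fun a => HeightLE.and (HeightLE.const n (p a)) (HeightLE.word n [a])

theorem HeightLE.pow {n : ℕ} {L : Language α} (hL : HeightLE n L) (k : ℕ) :
    HeightLE n (L ^ k) := by
  induction k with
  | zero => exact ⟨GRE.one, by rw [pow_zero]; rfl, Nat.zero_le n⟩
  | succ k ih =>
    rw [pow_succ]
    exact ih.mul hL

theorem HeightLE.kstar {n : ℕ} {L : Language α} (hL : HeightLE n L) :
    HeightLE (n + 1) (KStar.kstar L) := by
  obtain ⟨P, hP, hPh⟩ := hL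
  exact ⟨GRE.star P, by rw [GRE.lang, hP], Nat.succ_le_succ hPh⟩

end Vale.Agent.P329
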