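import Vale.Agent.Lib.P329.Closure

/-!
Integer valued functions on words all of whose residue classes are languages of generalized star
height at most one.
-/

namespace Vale.Agent.P329

/-- `Cnt f`: for every modulus `n > 0` and every residue `r`, the words `w` with
`f w ≡ r mod n` form a language of generalized star height at most one. -/
def Cnt {α : Type} (f : List α → ℤ) : Prop :=
  ∀ n : ℕ, 0 < n → ∀ r : ℤ, HeightLE 1 ({w | (n : ℤ) ∣ f w - r} : Language α)

variable {α : Type}

theorem Cnt.congr {f g : List α → ℤ} (hf : Cnt f) (h : ∀ w, f w = g w) : Cnt g := by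
  have : f = g := funext h
  rw [← this]
  exact hf

theorem Cnt.const (c : ℤ) : Cnt (fun _ : List α => c) := fun n _ r =>
  HeightLE.const 1 ((n : ℤ) ∣ c - r)

theorem Cnt.add {f g : List α → ℤ} (hf : Cnt f) (hg : Cnt g) : Cnt (fun w => f w + g w) := by
  intro n hn r
  have h1 : ∀ i : Fin n, HeightLE 1 ({w | (n : ℤ) ∣ f w - (i : ℕ) ∧
      (n : ℤ) ∣ g w - (r - (i : ℕ))} : Language α) :=
    fun i => (hf n hn _).and (hg n hn _)
  refine (HeightLE.exists_finite h1).congr fun w => ?_
  constructor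
  · rintro ⟨i, h2, h3⟩
    have := dvd_add h2 h3
    have h4 : f w - (i : ℕ) + (g w - (r - (i : ℕ))) = f w + g w - r := by ring
    rwa [h4] at this
  · intro h
    have hn' : (0 : ℤ) < n := by exact_mod_cast hn
    have h5 : 0 ≤ f w % n := Int.emod_nonneg _ hn'.ne'
    have h6 : f w % n < n := Int.emod_lt_of_pos _ hn'
    refine ⟨⟨(f w % n).toNat, by omega⟩, ?_⟩
    have h7 : (((f w % n).toNat : ℕ) : ℤ) = f w % n := Int.toNat_of_nonneg h5
    have h8 : (n : ℤ) ∣ f w - f w % n := Int.dvd_self_sub_emod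
    simp only
    rw [h7]
    refine ⟨h8, ?_⟩
    have := dvd_sub h h8
    have h9 : f w + g w - r - (f w - f w % n) = g w - (r - f w % n) := by ring
    rwa [h9] at this

theorem Cnt.const_mul {f : List α → ℤ} (c : ℤ) (hf : Cnt f) : Cnt (fun w => c * f w) := by
  intro n hn r
  have h1 : ∀ i : Fin n, HeightLE 1 ({w | (n : ℤ) ∣ f w - (i : ℕ) ∧
      (n : ℤ) ∣ c * (i : ℕ) - r} : Language α) :=
    fun i => (hf n hn _).and (HeightLE.const 1 _)
  refine (HeightLE.exists_finite h1).congr fun w => ?_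
  constructor
  · rintro ⟨i, h2, h3⟩
    have := dvd_add (h2.mul_left c) h3
    have h4 : c * (f w - (i : ℕ)) + (c * (i : ℕ) - r) = c * f w - r := by ring
    rwa [h4] at this
  · intro h
    have hn' : (0 : ℤ) < n := by exact_mod_cast hn
    have h5 : 0 ≤ f w % n := Int.emod_nonneg _ hn'.ne'
    have h6 : f w % n < n := Int.emod_lt_of_pos _ hn'
    refine ⟨⟨(f w % n).toNat, by omega⟩, ?_⟩
    have h7 : (((f w % n).toNat : ℕ) : ℤ) = f w % n := Int.toNat_of_nonneg h5
    have h8 : (n : ℤ) ∣ f w - f w % n := Int.dvd_self_sub_emod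
    simp only
    rw [h7]
    refine ⟨h8, ?_⟩
    have := dvd_sub h (h8.mul_left c)
    have h9 : c * f w - r - c * (f w - f w % n) = c * (f w % n) - r := by ring
    rwa [h9] at this

theorem Cnt.sub {f g : List α → ℤ} (hf : Cnt f) (hg : Cnt g) : Cnt (fun w => f w - g w) :=
  (hf.add (hg.const_mul (-1))).congr fun w => by ring

theorem Cnt.sum {ι : Type} (s : Finset ι) {f : ι → List α → ℤ} (hf : ∀ i ∈ s, Cnt (f i)) :
    Cnt (fun w => ∑ i ∈ s, f i w) := by
  classical
  induction s using Finset.induction_on with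
  | empty => exact (Cnt.const 0).congr fun w => by simp
  | insert i s hi ih =>
    refine ((hf i (Finset.mem_insert_self i s)).add
      (ih fun j hj => hf j (Finset.mem_insert_of_mem hj))).congr fun w => ?_
    rw [Finset.sum_insert hi]

/-- If a nonzero multiple of `f` has the property, so does `f`. -/
theorem Cnt.of_const_mul {f : List α → ℤ} {c : ℤ} (hc : c ≠ 0) (hf : Cnt (fun w => c * f w)) :
    Cnt f := by
  intro n hn r
  have h1 := hf (c.natAbs * n) (Nat.mul_pos (Int.natAbs_pos.2 hc) hn) (c * r)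
  refine h1.congr fun w => ?_
  rw [← mul_sub, Nat.cast_mul, ← Int.natAbs_dvd_natAbs, ← Int.natAbs_dvd_natAbs, Int.natAbs_mul,
    Int.natAbs_mul, Int.natAbs_natCast]
  exact Nat.mul_dvd_mul_iff_left (Int.natAbs_pos.2 hc)

open Classical in
theorem Cnt.indicator {p : List α → Prop} (hp : HeightLE 1 ({w | p w} : Language α)) :
    Cnt (fun w => if p w then (1 : ℤ) else 0) := by
  intro n _ r
  refine (HeightLE.or (hp.and (HeightLE.const 1 ((n : ℤ) ∣ 1 - r)))
    (hp.not.and (HeightLE.const 1 ((n : ℤ) ∣ 0 - r)))).congr fun w => ?_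
  by_cases h : p w
  · simp [h]
  · simp [h]

end Vale.Agent.P329
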