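import Vale.Agent.Lib.P329.Schutz

/-!
Languages of partial counter-free automata are star-free.
-/

namespace Vale.Agent.P329

/-- The run of a partial automaton from a state. -/
def prun {Q α : Type} (δ : Q → α → Option Q) : Q → List α → Option Q
  | q, [] => some q
  | q, a :: w => (δ q a).bind (fun q' => prun δ q' w)

/-- A partial automaton is counter-free: a word some power of which loops at a state loops at that
state. -/
def CounterFree {Q α : Type} (δ : Q → α → Option Q) : Prop :=
  ∀ (q : Q) (w : List α) (n : ℕ), 0 < n →
    prun δ q (List.replicate n w).flatten = some q → prun δ q w = some q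

theorem prun_append {Q α : Type} (δ : Q → α → Option Q) (q : Q) (u v : List α) :
    prun δ q (u ++ v) = (prun δ q u).bind (fun q' => prun δ q' v) := by
  induction u generalizing q with
  | nil => simp [prun]
  | cons a u ih =>
    simp only [List.cons_append, prun]
    cases δ q a with
    | none => rfl
    | some q' => exact ih q'

/-- the action of a word on the states with a sink -/
def act {Q α : Type} (δ : Q → α → Option Q) (w : List α) : Option Q → Option Q :=
  fun o => o.bind (fun q => prun δ q w)

theorem act_nil {Q α : Type} (δ : Q → α → Option Q) (o : Option Q) : act δ [] o = o := by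
  cases o <;> rfl

theorem act_append {Q α : Type} (δ : Q → α → Option Q) (u v : List α) (o : Option Q) :
    act δ (u ++ v) o = act δ v (act δ u o) := by
  cases o with
  | none => rfl
  | some q => exact prun_append δ q u v

theorem act_replicate {Q α : Type} (δ : Q → α → Option Q) (w : List α) (n : ℕ) (o : Option Q) :
    act δ (List.replicate n w).flatten o = (act δ w)^[n] o := by
  induction n generalizing o with
  | zero => exact act_nil δ o
  | succ n ih =>
    rw [List.replicate_succ, List.flatten_cons, act_append, ih, Function.iterate_succ_apply]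

/-- the monoid of actions of words (composed from left to right) -/
def actM {Q α : Type} (δ : Q → α → Option Q) : Submonoid (Function.End (Option Q))ᵐᵒᵖ where
  carrier := {m | ∃ w : List α, ∀ o, m.unop o = act δ w o}
  one_mem' := ⟨[], fun o => (act_nil δ o).symm⟩
  mul_mem' := by
    rintro a b ⟨u, hu⟩ ⟨v, hv⟩
    refine ⟨u ++ v, fun o => ?_⟩
    rw [act_append, ← hu, ← hv]
    rfl

/-- the action of a letter -/
def actL {Q α : Type} (δ : Q → α → Option Q) (a : α) : actM δ :=
  ⟨MulOpposite.op (act δ [a]), [a], fun _ => rfl⟩

theorem actL_prod {Q α : Type} (δ : Q → α → Option Q) (w : List α) (o : Option Q) :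
    ((w.map (actL δ)).prod).1.unop o = act δ w o := by
  induction w generalizing o with
  | nil => exact (act_nil δ o).symm
  | cons a w ih =>
    have h : a :: w = [a] ++ w := rfl
    rw [h, act_append, ← ih]
    rfl

theorem pow_unop {X : Type} (m : (Function.End X)ᵐᵒᵖ) (n : ℕ) (o : X) :
    (m ^ n).unop o = (m.unop)^[n] o := by
  induction n generalizing o with
  | zero => rfl
  | succ n ih =>
    have h1 : (m ^ (n + 1)).unop = (m * m ^ n).unop := congrArg MulOpposite.unop (pow_succ' m n)
    exact (congrFun (show ((m ^ (n + 1)).unop : X → X) = (m * m ^ n).unop from h1) o).trans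
      (ih (m.unop o))

/-- The language of the words leading from `x` to `y` in a counter-free partial automaton is
star-free. -/
theorem CounterFree.starFree {Q α : Type} [Finite Q] [Finite α] {δ : Q → α → Option Q}
    (h : CounterFree δ) (x y : Q) :
    HeightLE 0 ({w | prun δ x w = some y} : Language α) := by
  have hfin : Finite (Function.End (Option Q)) := by
    have : Finite (Option Q → Option Q) := inferInstance
    exact this
  have hfin' : Finite (actM δ) := by
    have : Finite (Function.End (Option Q))ᵐᵒᵖ := Finite.of_equiv _ MulOpposite.opEquiv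
    exact Finite.of_injective (fun m : actM δ => m.1) Subtype.val_injective
  have hap : ∀ m : actM δ, ∃ n : ℕ, m ^ n = m ^ (n + 1) := by
    rintro ⟨m, w, hw⟩
    have hwf : (m.unop : Option Q → Option Q) = act δ w := funext hw
    obtain ⟨i, j, hij, he⟩ : ∃ i j : ℕ, i < j ∧ m ^ i = m ^ j := by
      obtain ⟨i, j, hne, he⟩ := Finite.exists_ne_map_eq_of_infinite
        (fun n : ℕ => (⟨m, w, hw⟩ : actM δ) ^ n)
      have he' : m ^ i = m ^ j := congrArg Subtype.val he
      rcases lt_or_gt_of_ne hne with hlt | hlt
      · exact ⟨i, j, hlt, he'⟩
      · exact ⟨j, i, hlt, he'.symm⟩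
    refine ⟨i, Subtype.ext ?_⟩
    change m ^ i = m ^ (i + 1)
    refine MulOpposite.unop_injective (funext fun o => ?_)
    rw [pow_unop, pow_unop, hwf, Function.iterate_succ_apply']
    have heo : (act δ w)^[i] o = (act δ w)^[j] o := by
      rw [← hwf, ← pow_unop, ← pow_unop, he]
    cases hx : (act δ w)^[i] o with
    | none => rfl
    | some q =>
      have h1 : (act δ w)^[j - i] (some q) = some q := by
        rw [← hx, ← Function.iterate_add_apply, Nat.sub_add_cancel hij.le, ← heo]
      rw [← act_replicate] at h1
      exact (h q w (j - i) (Nat.sub_pos_of_lt hij) h1).symm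
  have hmain := starFree_of_aperiodic hap (actL δ) {m | m.1.unop (some x) = some y}
  have heq : ({w | prun δ x w = some y} : Language α) =
      {w | (w.map (actL δ)).prod ∈ {m : actM δ | m.1.unop (some x) = some y}} := by
    apply Set.ext
    intro w
    change prun δ x w = some y ↔ ((w.map (actL δ)).prod).1.unop (some x) = some y
    rw [actL_prod]
    rfl
  rw [heq]
  exact hmain

end Vale.Agent.P329
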