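import Mathlib

/-!
Generalized regular expressions, their languages and their star height.
-/

namespace Vale.Agent.P329

universe u v

/-- Generalized regular expressions over the alphabet `α`. -/
inductive GRE (α : Type u) : Type u
  | zero : GRE α
  | one : GRE α
  | letter (a : α) : GRE α
  | plus (P Q : GRE α) : GRE α
  | comp (P Q : GRE α) : GRE α
  | compl (P : GRE α) : GRE α
  | star (P : GRE α) : GRE α

/-- The language (a set of words) denoted by a generalized regular expression. The complement is
taken in the set of all words over `α`. -/
def GRE.lang {α : Type u} : GRE α → Language α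
  | GRE.zero => 0
  | GRE.one => 1
  | GRE.letter a => {[a]}
  | GRE.plus P Q => P.lang + Q.lang
  | GRE.comp P Q => P.lang * Q.lang
  | GRE.compl P => {w | w ∉ P.lang}
  | GRE.star P => KStar.kstar P.lang

/-- The star height of a generalized regular expression. -/
def GRE.starHeight {α : Type u} : GRE α → ℕ
  | GRE.zero => 0
  | GRE.one => 0
  | GRE.letter _ => 0
  | GRE.plus P Q => max P.starHeight Q.starHeight
  | GRE.comp P Q => max P.starHeight Q.starHeight
  | GRE.compl P => P.starHeight
  | GRE.star P => P.starHeight + 1

/-- `HeightLE n L`: the language `L` is denoted by some generalized regular expression of star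
height at most `n`. -/
def HeightLE {α : Type u} (n : ℕ) (L : Language α) : Prop :=
  ∃ P : GRE α, P.lang = L ∧ P.starHeight ≤ n

end Vale.Agent.P329
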