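import Vale.Agent.Lib.P329.ZModVisits

/-!
The number of times a letter is read in a given state of an automaton on an elementary abelian
group.
-/

namespace Vale.Agent.P329

section dual

variable {p : ℕ} [Fact p.Prime] {K : Type} [AddCommGroup K] [Module (ZMod p) K]

theorem exists_form {v : K} (hv : v ≠ 0) : ∃ l : K →ₗ[ZMod p] ZMod p, l v = 1 := by
  by_contra hcon
  push Not at hcon
  refine hv ((Module.forall_dual_apply_eq_zero_iff (ZMod p) v).1 fun φ => ?_)
  by_contra h
  refine hcon ((φ v)⁻¹ • φ) ?_
  simp [h]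

open Classical in
/-- The number of linear forms vanishing at a nonzero vector. -/
theorem card_forms [Fintype (K →ₗ[ZMod p] ZMod p)] {v : K} (hv : v ≠ 0) :
    p * (Finset.univ.filter (fun l : K →ₗ[ZMod p] ZMod p => l v = 0)).card =
      Fintype.card (K →ₗ[ZMod p] ZMod p) := by
  obtain ⟨l₀, hl₀⟩ := exists_form (p := p) hv
  have h1 : ∀ c : ZMod p, (Finset.univ.filter (fun l : K →ₗ[ZMod p] ZMod p => l v = c)).card =
      (Finset.univ.filter (fun l : K →ₗ[ZMod p] ZMod p => l v = 0)).card := by
    intro c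
    refine Finset.card_nbij' (fun l => l - c • l₀) (fun l => l + c • l₀) ?_ ?_ ?_ ?_
    · intro l hl
      simp only [Finset.coe_filter, Finset.mem_univ, true_and, Set.mem_ofPred_eq] at hl ⊢
      simp [hl, hl₀]
    · intro l hl
      simp only [Finset.coe_filter, Finset.mem_univ, true_and, Set.mem_ofPred_eq] at hl ⊢
      simp [hl, hl₀]
    · intro l _
      simp
    · intro l _
      simp
  have h2 := Finset.card_eq_sum_card_fiberwise (f := fun l : K →ₗ[ZMod p] ZMod p => l v)
    (s := Finset.univ) (t := Finset.univ) (fun _ _ => Finset.mem_coe.2 (Finset.mem_univ _))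
  rw [Finset.card_univ] at h2
  rw [h2, Finset.sum_congr rfl fun c _ => h1 c, Finset.sum_const, Finset.card_univ, ZMod.card,
    smul_eq_mul]

open Classical in
theorem sum_forms [Fintype (K →ₗ[ZMod p] ZMod p)] (u s : K) :
    (p : ℤ) * ∑ l : K →ₗ[ZMod p] ZMod p, (if l u = l s then (1 : ℤ) else 0) =
      Fintype.card (K →ₗ[ZMod p] ZMod p) +
        ((p : ℤ) - 1) * Fintype.card (K →ₗ[ZMod p] ZMod p) * (if u = s then 1 else 0) := by
  by_cases h : u = s
  · subst h
    simp
    ring
  · have hv : u - s ≠ 0 := sub_ne_zero.2 h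
    have h1 := card_forms (p := p) hv
    rw [if_neg h, Finset.sum_boole, ← h1]
    have h2 : (Finset.univ.filter (fun l : K →ₗ[ZMod p] ZMod p => l u = l s)) =
        Finset.univ.filter (fun l : K →ₗ[ZMod p] ZMod p => l (u - s) = 0) := by
      ext l
      simp [sub_eq_zero]
    rw [h2]
    push_cast
    ring

open Classical in
theorem sum_visits_forms [Fintype (K →ₗ[ZMod p] ZMod p)] {α : Type} (χ : α → K) (a : α) (s : K)
    (w : List α) : ∀ t : K,
    (p : ℤ) * ∑ l : K →ₗ[ZMod p] ZMod p, visits (fun x => l (χ x)) a (l s) (l t) w =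
      Fintype.card (K →ₗ[ZMod p] ZMod p) * (w.count a : ℤ) +
        ((p : ℤ) - 1) * Fintype.card (K →ₗ[ZMod p] ZMod p) * visits χ a s t w := by
  induction w with
  | nil =>
    intro t
    simp [visits]
  | cons b w ih =>
    intro t
    have e1 : visits χ a s t (b :: w) = (if b = a ∧ t = s then 1 else 0) +
        visits χ a s (t + χ b) w := by rw [visits]
    have e2 : ∀ l : K →ₗ[ZMod p] ZMod p, visits (fun x => l (χ x)) a (l s) (l t) (b :: w) =
        (if b = a ∧ l t = l s then 1 else 0) +
          visits (fun x => l (χ x)) a (l s) (l (t + χ b)) w := by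
      intro l
      rw [visits, map_add]
      congr 1
      split_ifs <;> rfl
    rw [e1, Finset.sum_congr rfl fun l _ => e2 l, Finset.sum_add_distrib, mul_add, ih,
      List.count_cons]
    have h3 := sum_forms (p := p) t s
    by_cases hb : b = a
    · subst hb
      simp only [true_and, beq_self_eq_true, if_true]
      rw [h3]
      push_cast
      ring
    · have h4 : (b == a) = false := by simpa using hb
      simp only [hb, false_and, if_false, Finset.sum_const_zero, h4]
      push_cast
      ring

end dual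

theorem finite_forms {p : ℕ} [Fact p.Prime] {K : Type} [AddCommGroup K] [Module (ZMod p) K]
    [Finite K] : Finite (K →ₗ[ZMod p] ZMod p) :=
  Finite.of_injective (fun (l : K →ₗ[ZMod p] ZMod p) (k : K) => l k)
    (fun _ _ h => LinearMap.ext fun k => congrFun h k)

theorem cnt_visits_module {α K : Type} [Finite α] [AddCommGroup K] [Finite K] (p : ℕ)
    [Fact p.Prime] [Module (ZMod p) K] (χ : α → K) (a : α) (s t : K) :
    Cnt (visits χ a s t) := by
  classical
  have hp : p.Prime := Fact.out
  have _ := finite_forms (p := p) (K := K)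
  have _ := Fintype.ofFinite (K →ₗ[ZMod p] ZMod p)
  have hD : (Fintype.card (K →ₗ[ZMod p] ZMod p) : ℤ) ≠ 0 := by
    exact_mod_cast Fintype.card_ne_zero
  have hp1 : ((p : ℤ) - 1) ≠ 0 := by
    have := hp.two_le
    omega
  refine Cnt.of_const_mul (mul_ne_zero hp1 hD) ?_
  have h1 : Cnt (fun w : List α => (p : ℤ) *
      ∑ l : K →ₗ[ZMod p] ZMod p, visits (fun x => l (χ x)) a (l s) (l t) w) :=
    Cnt.const_mul _ (Cnt.sum _ fun l _ => cnt_visits_zmod _ a _ _)
  refine Cnt.congr (Cnt.sub h1 (Cnt.const_mul
    (Fintype.card (K →ₗ[ZMod p] ZMod p) : ℤ) (cnt_count a))) fun w => ?_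
  rw [sum_visits_forms]
  ring

theorem cnt_visits_elementary {α K : Type} [Finite α] [AddCommGroup K] [Finite K] (p : ℕ)
    (hp : p.Prime) (hK : ∀ k : K, p • k = 0) (χ : α → K) (a : α) (s t : K) :
    Cnt (visits χ a s t) := by
  have _ : Fact p.Prime := ⟨hp⟩
  letI : Module (ZMod p) K := AddCommGroup.zmodModule hK
  exact cnt_visits_module p χ a s t

end Vale.Agent.P329
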