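import Vale.Agent.Lib.P329.Elementary

/-!
Languages recognized by finite groups with an abelian normal subgroup and an elementary abelian
quotient.
-/

namespace Vale.Agent.P329

open Classical in
/-- The product along a run: `ρ t * φ(w)` is the product of the factors
`n (s, a) = ρ s * φ a * (ρ (s + χ a))⁻¹`, counted with multiplicity, times `ρ` of the final
state. -/
theorem run_product {α G K C : Type} [Fintype α] [Group G] [AddCommGroup K] [Fintype K]
    [CommGroup C] (j : C →* G) (ρ : K → G) (φ : α → G) (χ : α → K) (nn : K × α → C)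
    (hnn : ∀ i : K × α, j (nn i) = ρ i.1 * φ i.2 * (ρ (i.1 + χ i.2))⁻¹) (w : List α) :
    ∀ t : K, ρ t * (w.map φ).prod =
      j (∏ i : K × α, nn i ^ (visits χ i.2 i.1 t w)) * ρ (t + (w.map χ).sum) := by
  induction w with
  | nil =>
    intro t
    simp [visits]
  | cons b w ih =>
    intro t
    have h1 : ∏ i : K × α, nn i ^ (visits χ i.2 i.1 t (b :: w)) =
        nn (t, b) * ∏ i : K × α, nn i ^ (visits χ i.2 i.1 (t + χ b) w) := by
      have h2 : ∀ i : K × α, nn i ^ (visits χ i.2 i.1 t (b :: w)) =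
          (if i = (t, b) then nn i else 1) * nn i ^ (visits χ i.2 i.1 (t + χ b) w) := by
        intro i
        rw [visits, zpow_add]
        congr 1
        by_cases h : i = (t, b)
        · subst h
          simp
        · rw [if_neg h, if_neg, zpow_zero]
          rintro ⟨h3, h4⟩
          exact h (Prod.ext h4.symm h3.symm)
      simp only [h2]
      rw [Finset.prod_mul_distrib, Finset.prod_ite_eq' Finset.univ (t, b) nn,
        if_pos (Finset.mem_univ _)]
    rw [h1, map_mul, hnn, List.map_cons, List.prod_cons, List.map_cons, List.sum_cons,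
      ← add_assoc, mul_assoc, ← ih (t + χ b)]
    group

theorem zpow_eq_of_dvd {C : Type} [CommGroup C] {e : ℕ} {x : C} (hx : x ^ e = 1) {v r : ℤ}
    (h : (e : ℤ) ∣ v - r) : x ^ v = x ^ r := by
  obtain ⟨c, hc⟩ := h
  have h1 : v = r + e * c := by omega
  rw [h1, zpow_add, zpow_mul, zpow_natCast, hx, one_zpow, mul_one]

/-- The main step, in terms of an epimorphism `π` onto an elementary abelian group. -/
theorem height_one_aux {α G K : Type} [Finite α] [Group G] [Finite G] [AddCommGroup K] [Finite K]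
    (π : G → K) (hπ : ∀ x y, π (x * y) = π x + π y) (hsurj : Function.Surjective π)
    (hab : ∀ x y, π x = 0 → π y = 0 → x * y = y * x) (p : ℕ) (hp : p.Prime)
    (hK : ∀ k : K, p • k = 0) (φ : α → G) (S : Set G) :
    HeightLE 1 ({w | (w.map φ).prod ∈ S} : Language α) := by
  classical
  have := Fintype.ofFinite α
  have := Fintype.ofFinite K
  have := Fintype.ofFinite G
  have hπ1 : π 1 = 0 := by
    have h := hπ 1 1
    rw [mul_one] at h
    exact left_eq_add.mp h
  have hπinv : ∀ x, π x⁻¹ = -π x := by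
    intro x
    have h := hπ x x⁻¹
    rw [mul_inv_cancel, hπ1] at h
    exact (neg_eq_of_add_eq_zero_right h.symm).symm
  -- the kernel
  let A : Subgroup G :=
    { carrier := {x | π x = 0}
      mul_mem' := by
        intro x y hx hy
        simp only [Set.mem_ofPred_eq] at *
        rw [hπ, hx, hy, add_zero]
      one_mem' := hπ1
      inv_mem' := by
        intro x hx
        simp only [Set.mem_ofPred_eq] at *
        rw [hπinv, hx, neg_zero] }
  let instA : CommGroup A :=
    { (inferInstance : Group A) with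
      mul_comm := fun x y => Subtype.ext (hab x.1 y.1 x.2 y.2) }
  let j : A →* G := A.subtype
  -- the section
  let ρ : K → G := fun k => if k = 0 then 1 else (hsurj k).choose
  have hρ : ∀ k, π (ρ k) = k := by
    intro k
    by_cases hk : k = 0
    · simp [ρ, hk, hπ1]
    · simp only [ρ, if_neg hk]
      exact (hsurj k).choose_spec
  have hρ0 : ρ 0 = 1 := by simp [ρ]
  let χ : α → K := fun a => π (φ a)
  let nn : K × α → A := fun i => ⟨ρ i.1 * φ i.2 * (ρ (i.1 + χ i.2))⁻¹, by
    change π (ρ i.1 * φ i.2 * (ρ (i.1 + χ i.2))⁻¹) = 0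
    rw [hπ, hπ, hπinv, hρ, hρ, add_neg_cancel]⟩
  have hrun := fun w => run_product j ρ φ χ nn (fun i => rfl) w 0
  let e : ℕ := Fintype.card G
  have he : 0 < e := Fintype.card_pos
  have hpow : ∀ x : A, x ^ e = 1 := by
    intro x
    apply Subtype.ext
    have h : ((x ^ e : A) : G) = (x : G) ^ e := rfl
    rw [h, pow_card_eq_one]
    rfl
  have hmain : HeightLE 1 ({w | ∃ i : K × (K × α → Fin e),
      (j (∏ k : K × α, nn k ^ ((i.2 k : ℕ) : ℤ)) * ρ i.1 ∈ S) ∧
      (((w.map χ).sum ∈ ({i.1} : Set K)) ∧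
        ∀ k : K × α, (e : ℤ) ∣ visits χ k.2 k.1 0 w - ((i.2 k : ℕ) : ℤ))} : Language α) := by
    refine HeightLE.exists_finite fun i => ?_
    refine HeightLE.and (HeightLE.const 1 _) (HeightLE.and (height_abelian χ _) ?_)
    refine HeightLE.forall_finite fun k => ?_
    exact cnt_visits_elementary p hp hK χ k.2 k.1 0 e he _
  refine HeightLE.congr hmain fun w => ?_
  have hw := hrun w
  rw [hρ0, one_mul, zero_add] at hw
  constructor
  · rintro ⟨i, h1, h2, h3⟩
    rw [Set.mem_singleton_iff] at h2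
    rw [hw, h2]
    have h4 : ∏ k : K × α, nn k ^ (visits χ k.2 k.1 0 w) =
        ∏ k : K × α, nn k ^ ((i.2 k : ℕ) : ℤ) :=
      Finset.prod_congr rfl fun k _ => zpow_eq_of_dvd (hpow _) (h3 k)
    rw [h4]
    exact h1
  · intro h
    have hmod : ∀ k : K × α, (visits χ k.2 k.1 0 w % (e : ℤ)).toNat < e := by
      intro k
      have h1 := Int.emod_lt_of_pos (visits χ k.2 k.1 0 w) (by exact_mod_cast he : (0 : ℤ) < e)
      have h2 := Int.emod_nonneg (visits χ k.2 k.1 0 w) (by exact_mod_cast he.ne' : (e : ℤ) ≠ 0)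
      omega
    have hdvd : ∀ k : K × α, (e : ℤ) ∣ visits χ k.2 k.1 0 w -
        (((visits χ k.2 k.1 0 w % (e : ℤ)).toNat : ℕ) : ℤ) := by
      intro k
      have h2 := Int.emod_nonneg (visits χ k.2 k.1 0 w) (by exact_mod_cast he.ne' : (e : ℤ) ≠ 0)
      rw [Int.toNat_of_nonneg h2]
      exact Int.dvd_self_sub_emod
    refine ⟨⟨(w.map χ).sum, fun k => ⟨_, hmod k⟩⟩, ?_, rfl, hdvd⟩
    have h4 : ∏ k : K × α, nn k ^ (visits χ k.2 k.1 0 w) =
        ∏ k : K × α, nn k ^ ((((visits χ k.2 k.1 0 w % (e : ℤ)).toNat : ℕ)) : ℤ) :=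
      Finset.prod_congr rfl fun k _ => zpow_eq_of_dvd (hpow _) (hdvd k)
    simp only
    rw [← h4, ← hw]
    exact h

theorem height_one_of_abelian_by_elementary {α G : Type} [Finite α] [Group G] [Finite G]
    (N : Subgroup G) [N.Normal] (hN : ∀ x ∈ N, ∀ y ∈ N, x * y = y * x) (p : ℕ) (hp : p.Prime)
    (hpow : ∀ x : G, x ^ p ∈ N) (hcomm : ∀ x y : G, x * y * x⁻¹ * y⁻¹ ∈ N) (φ : α → G)
    (S : Set G) : HeightLE 1 ({w | (w.map φ).prod ∈ S} : Language α) := by
  have hc : ∀ a b : G ⧸ N, a * b = b * a := by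
    intro a b
    induction a using QuotientGroup.induction_on with
    | H x =>
      induction b using QuotientGroup.induction_on with
      | H y =>
        rw [← QuotientGroup.mk_mul, ← QuotientGroup.mk_mul, QuotientGroup.eq]
        have h := hcomm y⁻¹ x⁻¹
        simpa [mul_assoc] using h
  let instQ : CommGroup (G ⧸ N) := { (inferInstance : Group (G ⧸ N)) with mul_comm := hc }
  refine height_one_aux (G := G) (K := Additive (G ⧸ N))
    (fun x : G => Additive.ofMul (x : G ⧸ N))
    (fun x y => rfl) ?_ ?_ p hp ?_ φ S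
  · intro k
    obtain ⟨x, hx⟩ := QuotientGroup.mk_surjective (Additive.toMul k)
    exact ⟨x, congrArg Additive.ofMul hx⟩
  · intro x y hx hy
    have hx' : (x : G ⧸ N) = 1 := hx
    have hy' : (y : G ⧸ N) = 1 := hy
    rw [QuotientGroup.eq_one_iff] at hx' hy'
    exact hN x hx' y hy'
  · intro k
    obtain ⟨x, hx⟩ := QuotientGroup.mk_surjective (Additive.toMul k)
    have h1 : Additive.toMul (p • k) = 1 := by
      rw [toMul_nsmul, ← hx, ← QuotientGroup.mk_pow, QuotientGroup.eq_one_iff]
      exact hpow x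
    exact h1

/-- The residual form: it is enough that every non-trivial element survives in a quotient that
is abelian by elementary abelian. -/
theorem height_one_of_residually {α G : Type} [Finite α] [Group G] [Finite G]
    (h : ∀ g : G, g ≠ 1 → ∃ (M N : Subgroup G) (p : ℕ), M.Normal ∧ N.Normal ∧ M ≤ N ∧ g ∉ M ∧
      p.Prime ∧ (∀ x ∈ N, ∀ y ∈ N, x * y * x⁻¹ * y⁻¹ ∈ M) ∧ (∀ x : G, x ^ p ∈ N) ∧
      (∀ x y : G, x * y * x⁻¹ * y⁻¹ ∈ N)) (φ : α → G)
    (S : Set G) : HeightLE 1 ({w | (w.map φ).prod ∈ S} : Language α) := by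
  -- the languages of the cosets
  have hcoset : ∀ g k : G, g ≠ 1 → ∃ M : Subgroup G, g ∉ M ∧
      HeightLE 1 ({w | k⁻¹ * (w.map φ).prod ∈ M} : Language α) := by
    intro g k hg
    obtain ⟨M, N, p, hM, hN, hMN, hgM, hp, hab, hpow, hcomm⟩ := h g hg
    refine ⟨M, hgM, ?_⟩
    have hNn : (N.map (QuotientGroup.mk' M)).Normal :=
      Subgroup.Normal.map hN _ (QuotientGroup.mk'_surjective M)
    have h1 := height_one_of_abelian_by_elementary (G := G ⧸ M) (N.map (QuotientGroup.mk' M))
      ?_ p hp ?_ ?_ (fun a => (φ a : G ⧸ M)) {(k : G ⧸ M)}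
    · refine HeightLE.congr h1 fun w => ?_
      have h2 : (w.map fun a => (φ a : G ⧸ M)).prod = (((w.map φ).prod : G) : G ⧸ M) := by
        have h3 := map_list_prod (QuotientGroup.mk' M) (w.map φ)
        rw [List.map_map] at h3
        exact h3.symm
      rw [h2, Set.mem_singleton_iff, eq_comm, QuotientGroup.eq]
    · intro x hx y hy
      rw [Subgroup.mem_map] at hx hy
      obtain ⟨x, hx, rfl⟩ := hx
      obtain ⟨y, hy, rfl⟩ := hy
      rw [← map_mul, ← map_mul]
      change ((x * y : G) : G ⧸ M) = ((y * x : G) : G ⧸ M)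
      rw [QuotientGroup.eq]
      have h2 := hab y⁻¹ (N.inv_mem hy) x⁻¹ (N.inv_mem hx)
      simpa [mul_assoc] using h2
    · intro x
      obtain ⟨x, rfl⟩ := QuotientGroup.mk_surjective x
      exact ⟨x ^ p, hpow x, rfl⟩
    · intro x y
      obtain ⟨x, rfl⟩ := QuotientGroup.mk_surjective x
      obtain ⟨y, rfl⟩ := QuotientGroup.mk_surjective y
      exact ⟨x * y * x⁻¹ * y⁻¹, hcomm x y, rfl⟩
  choose! M hM1 hM2 using hcoset
  have hmain : HeightLE 1 ({w | ∃ k : G, k ∈ S ∧ ∀ g : G,
      (g = 1 ∨ k⁻¹ * (w.map φ).prod ∈ M g k)} : Language α) := by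
    refine HeightLE.exists_finite fun k => HeightLE.and (HeightLE.const 1 _) ?_
    refine HeightLE.forall_finite fun g => ?_
    by_cases hg : g = 1
    · exact HeightLE.congr (HeightLE.const 1 True) fun w => by simp [hg]
    · exact HeightLE.congr (hM2 g k hg) fun w => by simp [hg]
  refine HeightLE.congr hmain fun w => ?_
  constructor
  · rintro ⟨k, hk, h1⟩
    by_cases h2 : k⁻¹ * (w.map φ).prod = 1
    · have h3 : (w.map φ).prod = k := by
        rw [inv_mul_eq_one] at h2
        exact h2.symm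
      rw [h3]
      exact hk
    · rcases h1 (k⁻¹ * (w.map φ).prod) with h3 | h3
      · exact absurd h3 h2
      · exact absurd h3 (hM1 _ _ h2)
  · intro hw
    refine ⟨(w.map φ).prod, hw, fun g => ?_⟩
    by_cases hg : g = 1
    · exact Or.inl hg
    · right
      rw [inv_mul_cancel]
      exact (M g _).one_mem

end Vale.Agent.P329
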