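import Vale.Agent.Lib.P329.CounterFree
import Vale.Agent.Lib.P329.Cnt

/-!
The number of occurrences of an event which always leads to the same state, in an automaton which
becomes counter-free when the events are forbidden.
-/

namespace Vale.Agent.P329

open Classical in
/-- The number of events along the run of an automaton. -/
noncomputable def events {Q α : Type} (δ : Q → α → Q) (ev : Q → α → Prop) : Q → List α → ℤ
  | _, [] => 0
  | q, a :: w => (if ev q a then 1 else 0) + events δ ev (δ q a) w

open Classical in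
/-- The partial automaton obtained by forbidding the events. -/
noncomputable def forbid {Q α : Type} (δ : Q → α → Q) (ev : Q → α → Prop) : Q → α → Option Q :=
  fun q a => if ev q a then none else some (δ q a)

section aux

variable {Q α : Type} (δ : Q → α → Q) (ev : Q → α → Prop)

theorem events_cons_pos {q : Q} {a : α} (h : ev q a) (w : List α) :
    events δ ev q (a :: w) = 1 + events δ ev (δ q a) w := by
  rw [events, if_pos h]

theorem events_cons_neg {q : Q} {a : α} (h : ¬ ev q a) (w : List α) :
    events δ ev q (a :: w) = events δ ev (δ q a) w := by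
  rw [events, if_neg h, zero_add]

theorem prun_cons_pos {q : Q} {a : α} (h : ev q a) (w : List α) :
    prun (forbid δ ev) q (a :: w) = none := by
  rw [prun, forbid, if_pos h]
  rfl

theorem prun_cons_neg {q : Q} {a : α} (h : ¬ ev q a) (w : List α) :
    prun (forbid δ ev) q (a :: w) = prun (forbid δ ev) (δ q a) w := by
  rw [prun, forbid, if_neg h]
  rfl

theorem events_nonneg (q : Q) (w : List α) : 0 ≤ events δ ev q w := by
  induction w generalizing q with
  | nil => exact le_refl _
  | cons a w ih =>
    by_cases h : ev q a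
    · rw [events_cons_pos δ ev h]
      have := ih (δ q a)
      omega
    · rw [events_cons_neg δ ev h]
      exact ih _

/-- words without event -/
def wordsT (q : Q) : Language α := {w | ∃ q', prun (forbid δ ev) q w = some q'}

/-- words without event leading from `q` to `q'` -/
def wordsR (q q' : Q) : Language α := {w | prun (forbid δ ev) q w = some q'}

/-- events at `q'` -/
def lettersL (q' : Q) : Language α := {w | ∃ a, ev q' a ∧ w = [a]}

/-- words with exactly one event, at the end -/
def wordsE (q : Q) : Language α := {w | ∃ q', w ∈ wordsR δ ev q q' * lettersL ev q'}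

theorem mem_wordsT {q : Q} {w : List α} :
    w ∈ wordsT δ ev q ↔ ∃ q', prun (forbid δ ev) q w = some q' := Iff.rfl

theorem mem_wordsE {q : Q} {w : List α} :
    w ∈ wordsE δ ev q ↔ ∃ q' u a, prun (forbid δ ev) q u = some q' ∧ ev q' a ∧ w = u ++ [a] := by
  constructor
  · rintro ⟨q', h⟩
    rw [Language.mem_mul] at h
    obtain ⟨u, hu, v, ⟨a, ha, rfl⟩, rfl⟩ := h
    exact ⟨q', u, a, hu, ha, rfl⟩
  · rintro ⟨q', u, a, hu, ha, rfl⟩
    refine ⟨q', ?_⟩
    rw [Language.mem_mul]
    exact ⟨u, hu, [a], ⟨a, ha, rfl⟩, rfl⟩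

theorem events_eq_zero_iff {q : Q} {w : List α} :
    events δ ev q w = 0 ↔ w ∈ wordsT δ ev q := by
  rw [mem_wordsT]
  induction w generalizing q with
  | nil => exact ⟨fun _ => ⟨q, rfl⟩, fun _ => rfl⟩
  | cons a w ih =>
    by_cases h : ev q a
    · rw [events_cons_pos δ ev h, prun_cons_pos δ ev h]
      have := events_nonneg δ ev (δ q a) w
      constructor
      · intro h0
        omega
      · rintro ⟨q', hq'⟩
        exact absurd hq' (by simp)
    · rw [events_cons_neg δ ev h, prun_cons_neg δ ev h]
      exact ih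

theorem events_append {x : Q} (hx : ∀ q a, ev q a → δ q a = x) {a : α} {q' : Q} (ha : ev q' a)
    (v : List α) (u : List α) (q : Q) (hu : prun (forbid δ ev) q u = some q') :
    events δ ev q (u ++ [a] ++ v) = 1 + events δ ev x v := by
  induction u generalizing q with
  | nil =>
    have hq : q = q' := by
      rw [prun] at hu
      exact Option.some.inj hu
    rw [List.nil_append, List.singleton_append, hq, events_cons_pos δ ev ha, hx q' a ha]
  | cons b u ih =>
    by_cases h : ev q b
    · rw [prun_cons_pos δ ev h] at hu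
      exact absurd hu (by simp)
    · rw [prun_cons_neg δ ev h] at hu
      rw [List.cons_append, List.cons_append, events_cons_neg δ ev h]
      exact ih _ hu

/-- cutting at the first event -/
theorem events_succ_iff {x : Q} (hx : ∀ q a, ev q a → δ q a = x) {q : Q} {w : List α} (k : ℕ) :
    events δ ev q w = k + 1 ↔ ∃ u v, w = u ++ v ∧ u ∈ wordsE δ ev q ∧ events δ ev x v = k := by
  constructor
  · intro h
    induction w generalizing q with
    | nil =>
      rw [events] at h
      omega
    | cons a w ih =>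
      by_cases ha : ev q a
      · rw [events_cons_pos δ ev ha, hx q a ha] at h
        refine ⟨[a], w, rfl, ?_, by omega⟩
        rw [mem_wordsE]
        exact ⟨q, [], a, rfl, ha, rfl⟩
      · rw [events_cons_neg δ ev ha] at h
        obtain ⟨u, v, hw, hu, hv⟩ := ih h
        refine ⟨a :: u, v, by rw [hw]; rfl, ?_, hv⟩
        rw [mem_wordsE] at hu ⊢
        obtain ⟨q', u', b, hu', hb, rfl⟩ := hu
        refine ⟨q', a :: u', b, ?_, hb, rfl⟩
        rw [prun_cons_neg δ ev ha]
        exact hu'
  · rintro ⟨u, v, rfl, hu, hv⟩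
    rw [mem_wordsE] at hu
    obtain ⟨q', u', b, hu', hb, rfl⟩ := hu
    rw [events_append δ ev hx hb v u' q hu', hv]
    omega

theorem events_succ_iff_mem {x : Q} (hx : ∀ q a, ev q a → δ q a = x) (k : ℕ) (q : Q)
    (w : List α) : events δ ev q w = k + 1 ↔
      w ∈ wordsE δ ev q * ((wordsE δ ev x) ^ k * wordsT δ ev x) := by
  induction k generalizing q w with
  | zero =>
    rw [events_succ_iff δ ev hx, pow_zero, one_mul, Language.mem_mul]
    constructor
    · rintro ⟨u, v, rfl, hu, hv⟩
      exact ⟨u, hu, v, (events_eq_zero_iff δ ev).mp (by exact_mod_cast hv), rfl⟩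
    · rintro ⟨u, hu, v, hv, rfl⟩
      exact ⟨u, v, rfl, hu, by exact_mod_cast (events_eq_zero_iff δ ev).mpr hv⟩
  | succ k ih =>
    rw [events_succ_iff δ ev hx, Language.mem_mul]
    constructor
    · rintro ⟨u, v, rfl, hu, hv⟩
      refine ⟨u, hu, v, ?_, rfl⟩
      rw [pow_succ', mul_assoc]
      exact (ih x v).mp (by rw [hv]; push_cast; ring)
    · rintro ⟨u, hu, v, hv, rfl⟩
      refine ⟨u, v, rfl, hu, ?_⟩
      rw [pow_succ', mul_assoc] at hv
      have := (ih x v).mpr hv
      rw [this]
      push_cast
      ring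

theorem mem_kstar_iff_pow {l : Language α} {w : List α} :
    w ∈ KStar.kstar l ↔ ∃ i : ℕ, w ∈ l ^ i := by
  rw [Language.kstar_eq_iSup_pow, Language.mem_iSup]

theorem height_wordsT [Finite Q] [Finite α] (hcf : CounterFree (forbid δ ev)) (q : Q) :
    HeightLE 0 (wordsT δ ev q) :=
  HeightLE.exists_finite (fun q' => hcf.starFree q q')

theorem height_wordsE [Finite Q] [Finite α] (hcf : CounterFree (forbid δ ev)) (q : Q) :
    HeightLE 0 (wordsE δ ev q) :=
  HeightLE.exists_finite (p := fun q' w => w ∈ wordsR δ ev q q' * lettersL ev q')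
    (fun q' => HeightLE.mul (L := wordsR δ ev q q') (M := lettersL ev q') (hcf.starFree q q')
      (HeightLE.letters 0 (fun a => ev q' a)))

end aux

/-- The number of events is countable modulo every integer with star height one. -/
theorem cnt_events {Q α : Type} [Finite Q] [Finite α] (δ : Q → α → Q) (ev : Q → α → Prop) (x : Q)
    (hx : ∀ q a, ev q a → δ q a = x) (hcf : CounterFree (forbid δ ev)) (q : Q) :
    Cnt (events δ ev q) := by
  intro n hn r
  have hn' : (0 : ℤ) < n := by exact_mod_cast hn
  -- the residue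
  set j : ℕ := ((r - 1) % (n : ℤ)).toNat with hj
  have hj0 : (j : ℤ) = (r - 1) % (n : ℤ) :=
    Int.toNat_of_nonneg (Int.emod_nonneg _ hn'.ne')
  have hT : HeightLE 1 (wordsT δ ev q) := (height_wordsT δ ev hcf q).mono (Nat.zero_le 1)
  have hTx : HeightLE 1 (wordsT δ ev x) := (height_wordsT δ ev hcf x).mono (Nat.zero_le 1)
  have hE : HeightLE 1 (wordsE δ ev q) := (height_wordsE δ ev hcf q).mono (Nat.zero_le 1)
  have hEx := height_wordsE δ ev hcf x
  have hEx1 : HeightLE 1 (wordsE δ ev x) := hEx.mono (Nat.zero_le 1)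
  have hbig : HeightLE 1 (wordsE δ ev q * (((wordsE δ ev x) ^ j *
      KStar.kstar ((wordsE δ ev x) ^ n)) * wordsT δ ev x)) :=
    hE.mul (((hEx1.pow j).mul (hEx.pow n).kstar).mul hTx)
  have h1 : HeightLE 1 ({w | ((n : ℤ) ∣ -r ∧ w ∈ wordsT δ ev q) ∨ w ∈ (wordsE δ ev q *
      (((wordsE δ ev x) ^ j * KStar.kstar ((wordsE δ ev x) ^ n)) * wordsT δ ev x))} :
      Language α) :=
    HeightLE.or (HeightLE.and (HeightLE.const 1 _) hT) hbig
  refine HeightLE.congr h1 (fun w => ?_)
  constructor
  · rintro (⟨hr, hw⟩ | hw)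
    · rw [(events_eq_zero_iff δ ev).mpr hw, zero_sub]
      exact hr
    · rw [Language.mem_mul] at hw
      obtain ⟨u, hu, v, hv, rfl⟩ := hw
      rw [mul_assoc, Language.mem_mul] at hv
      obtain ⟨v1, hv1, v2, hv2, rfl⟩ := hv
      rw [Language.mem_mul] at hv2
      obtain ⟨v3, hv3, v4, hv4, rfl⟩ := hv2
      rw [mem_kstar_iff_pow] at hv3
      obtain ⟨i, hi⟩ := hv3
      rw [← pow_mul] at hi
      have hmem : u ++ (v1 ++ (v3 ++ v4)) ∈ wordsE δ ev q *
          ((wordsE δ ev x) ^ (j + n * i) * wordsT δ ev x) := by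
        rw [Language.mem_mul]
        refine ⟨u, hu, v1 ++ (v3 ++ v4), ?_, rfl⟩
        rw [pow_add, mul_assoc, Language.mem_mul]
        refine ⟨v1, hv1, v3 ++ v4, ?_, rfl⟩
        rw [Language.mem_mul]
        exact ⟨v3, hi, v4, hv4, rfl⟩
      have hev := (events_succ_iff_mem δ ev hx (j + n * i) q _).mpr hmem
      rw [hev]
      have h2 : ((j + n * i : ℕ) : ℤ) + 1 - r = (n : ℤ) * i - ((r - 1) - (j : ℤ)) := by
        push_cast
        ring
      rw [h2, hj0]
      exact dvd_sub (dvd_mul_right _ _) (Int.dvd_self_sub_emod)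
  · intro hw
    have h0 := events_nonneg δ ev q w
    obtain ⟨m, hm⟩ := Int.eq_ofNat_of_zero_le h0
    rcases Nat.eq_zero_or_pos m with rfl | hpos
    · left
      refine ⟨?_, (events_eq_zero_iff δ ev).mp (by rw [hm]; rfl)⟩
      rw [hm] at hw
      simpa using hw
    · right
      obtain ⟨k, rfl⟩ : ∃ k, m = k + 1 := ⟨m - 1, by omega⟩
      have hk : events δ ev q w = (k : ℤ) + 1 := by
        rw [hm]
        push_cast
        ring
      rw [hk] at hw
      have hmod : (k : ℤ) % n = (r - 1) % n := by
        refine (Int.emod_emod_of_dvd _ (dvd_refl _)).symm.trans ?_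
        refine Int.emod_emod_of_dvd _ (dvd_refl _) |>.trans ?_
        have : (n : ℤ) ∣ k - (r - 1) := by
          have e : (k : ℤ) - (r - 1) = k + 1 - r := by ring
          rw [e]
          exact hw
        exact (Int.emod_emod_of_dvd _ (dvd_refl _)).symm.trans
          (by rw [Int.emod_emod_of_dvd _ (dvd_refl _)]; exact Int.emod_eq_emod_iff_emod_sub_eq_zero.mpr (Int.emod_eq_zero_of_dvd this))
      have hkj : k % n = j := by
        have : ((k % n : ℕ) : ℤ) = (j : ℤ) := by
          rw [hj0, ← hmod]
          push_cast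
          rfl
        exact_mod_cast this
      have hki : k = j + n * (k / n) := by
        rw [← hkj]
        exact (Nat.mod_add_div k n).symm
      have hmem := (events_succ_iff_mem δ ev hx k q w).mp hk
      rw [hki, pow_add, pow_mul] at hmem
      rw [Language.mem_mul] at hmem ⊢
      obtain ⟨u, hu, v, hv, rfl⟩ := hmem
      refine ⟨u, hu, v, ?_, rfl⟩
      rw [mul_assoc, Language.mem_mul] at hv ⊢
      obtain ⟨v1, hv1, v2, hv2, rfl⟩ := hv
      refine ⟨v1, hv1, v2, ?_, rfl⟩
      rw [Language.mem_mul] at hv2 ⊢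
      obtain ⟨v3, hv3, v4, hv4, rfl⟩ := hv2
      exact ⟨v3, mem_kstar_iff_pow.mpr ⟨_, hv3⟩, v4, hv4, rfl⟩

end Vale.Agent.P329
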