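import Vale.Agent.Lib.P329.Visits

/-!
Automata on `ZMod p`, with `p` prime: a word whose weight is not zero visits every state when it is
repeated.
-/

namespace Vale.Agent.P329

variable {α : Type} [Finite α] {p : ℕ} [Fact p.Prime]

omit [Finite α] in
theorem prun_forbid_eq_some (χ : α → ZMod p) (ev : ZMod p → α → Prop) (q q' : ZMod p)
    (w : List α) (h : prun (forbid (fun (q : ZMod p) (a : α) => q + χ a) ev) q w = some q') :
    q' = q + (w.map χ).sum := by
  classical
  induction w generalizing q with
  | nil =>
    rw [prun] at h
    simp only [Option.some.injEq] at h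
    simp [h]
  | cons a w ih =>
    rw [prun] at h
    unfold forbid at h
    by_cases hev : ev q a
    · simp [hev] at h
    · rw [if_neg hev, Option.bind_some] at h
      have := ih _ h
      rw [this, List.map_cons, List.sum_cons, add_assoc]

omit [Finite α] in
theorem prun_forbid_append (χ : α → ZMod p) (ev : ZMod p → α → Prop) (q q' : ZMod p)
    (u v : List α)
    (h : prun (forbid (fun (q : ZMod p) (a : α) => q + χ a) ev) q (u ++ v) = some q') :
    prun (forbid (fun (q : ZMod p) (a : α) => q + χ a) ev) q u = some (q + (u.map χ).sum) ∧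
    prun (forbid (fun (q : ZMod p) (a : α) => q + χ a) ev) (q + (u.map χ).sum) v = some q' := by
  rw [prun_append] at h
  cases hc : prun (forbid (fun (q : ZMod p) (a : α) => q + χ a) ev) q u with
  | none => rw [hc] at h; simp at h
  | some q1 =>
    have e := prun_forbid_eq_some χ ev q q1 u hc
    rw [hc, Option.bind_some] at h
    rw [← e]
    exact ⟨rfl, h⟩

omit [Finite α] in
theorem sum_map_flatten_replicate (χ : α → ZMod p) (w : List α) (n : ℕ) :
    (((List.replicate n w).flatten).map χ).sum = n * (w.map χ).sum := by
  induction n with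
  | zero => simp
  | succ n ih =>
    rw [List.replicate_succ, List.flatten_cons, List.map_append, List.sum_append, ih]
    push_cast
    ring

/-- The number of arrivals in the state `s` by a letter satisfying `P`, where `P` holds for all
letters of nonzero weight. -/
theorem counterFree_arrivals (χ : α → ZMod p) (s : ZMod p) (P : α → Prop)
    (hP : ∀ a, χ a ≠ 0 → P a) :
    CounterFree (forbid (fun (q : ZMod p) (a : α) => q + χ a)
      (fun q a => q + χ a = s ∧ P a)) := by
  classical
  intro q w n hn h
  set σ := (w.map χ).sum with hσ
  have htot := prun_forbid_eq_some χ _ q q _ h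
  rw [sum_map_flatten_replicate, ← hσ] at htot
  by_cases h0 : σ = 0
  · obtain ⟨n, rfl⟩ := Nat.exists_eq_succ_of_ne_zero hn.ne'
    rw [List.replicate_succ, List.flatten_cons] at h
    have h1 := (prun_forbid_append χ _ q q _ _ h).1
    rw [← hσ, h0, add_zero] at h1
    exact h1
  · exfalso
    have hnσ : (n : ZMod p) * σ = 0 := by
      have : q + 0 = q + n * σ := by rw [add_zero]; exact htot
      exact (add_left_cancel this).symm
    have hn0 : (n : ZMod p) = 0 := (mul_eq_zero.1 hnσ).resolve_right h0
    have hpn : p ∣ n := (ZMod.natCast_eq_zero_iff n p).1 hn0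
    have hple : p ≤ n := Nat.le_of_dvd hn hpn
    obtain ⟨b, hbw, hb⟩ : ∃ b ∈ w, χ b ≠ 0 := by
      by_contra hcon
      push Not at hcon
      apply h0
      rw [hσ]
      apply List.sum_eq_zero
      intro x hx
      obtain ⟨b, hb, rfl⟩ := List.mem_map.1 hx
      exact hcon b hb
    obtain ⟨w1, w2, hw⟩ := List.append_of_mem hbw
    set k : ℕ := ((s - q - (w1.map χ).sum - χ b) / σ).val with hk
    have hkp : k < p := ZMod.val_lt _
    have hkσ : (k : ZMod p) * σ = s - q - (w1.map χ).sum - χ b := by
      rw [hk, ZMod.natCast_zmod_val, div_mul_cancel₀ _ h0]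
    have hsplit : (List.replicate n w).flatten =
        ((List.replicate k w).flatten ++ w1) ++ (b :: (w2 ++
          (List.replicate (n - k - 1) w).flatten)) := by
      have e1 : n = k + (1 + (n - k - 1)) := by omega
      have e2 : (List.replicate n w).flatten = (List.replicate (k + (1 + (n - k - 1))) w).flatten := by
        rw [← e1]
      rw [e2, List.replicate_add, List.replicate_add, List.flatten_append, List.flatten_append]
      have e3 : (List.replicate 1 w).flatten = w1 ++ b :: w2 := by
        simp [hw]
      rw [e3]
      simp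
    rw [hsplit] at h
    have h2 := (prun_forbid_append χ _ q q _ _ h).2
    rw [List.map_append, List.sum_append, sum_map_flatten_replicate, ← hσ, hkσ, prun] at h2
    unfold forbid at h2
    have hev : (q + (s - q - (w1.map χ).sum - χ b + (w1.map χ).sum)) + χ b = s ∧ P b :=
      ⟨by ring, hP b hb⟩
    rw [if_pos hev] at h2
    simp at h2

theorem cnt_arrivals (χ : α → ZMod p) (s : ZMod p) (P : α → Prop)
    (hP : ∀ a, χ a ≠ 0 → P a) (t : ZMod p) :
    Cnt (events (fun (q : ZMod p) (a : α) => q + χ a) (fun q a => q + χ a = s ∧ P a) t) :=
  cnt_events _ _ s (fun _ _ h => h.1) (counterFree_arrivals χ s P hP) t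

/-- Neutral letters. -/
theorem cnt_visits_neutral (χ : α → ZMod p) (a : α) (ha : χ a = 0) (s t : ZMod p) :
    Cnt (visits χ a s t) := by
  classical
  have h1 := cnt_arrivals χ s (fun _ => True) (fun _ _ => trivial) t
  have h2 := cnt_arrivals χ s (fun c => c ≠ a) (fun c hc h => hc (h ▸ ha)) t
  refine (h1.sub h2).congr ?_
  intro w
  clear h1 h2
  induction w generalizing t with
  | nil => simp [events, visits]
  | cons b w ih =>
    rw [events, events, visits, ← ih (t + χ b)]
    by_cases hb : b = a
    · subst hb
      simp [ha]
      ring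
    · simp [hb]

end Vale.Agent.P329
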