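import Vale.Agent.Lib.P329.Neutral

/-!
Counting pairs of consecutive letters of nonzero weight.
-/

namespace Vale.Agent.P329

variable {α : Type} {p : ℕ}

open Classical in
/-- One step of the automaton that remembers the state and the last letter of nonzero weight. -/
noncomputable def memStep (χ : α → ZMod p) (q : ZMod p × Option α) (a : α) :
    ZMod p × Option α :=
  if χ a = 0 then q else (q.1 + χ a, some a)

/-- The number of times the letter `z` is read, leads to the state `s`, and the last letter of
nonzero weight read before is `y`. -/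
noncomputable def pairs (χ : α → ZMod p) (y z : α) (s : ZMod p) :
    ZMod p × Option α → List α → ℤ :=
  events (memStep χ) (fun q a => a = z ∧ q.2 = some y ∧ q.1 + χ a = s)

open Classical in
/-- One step of the automaton that forgets the last letter when it comes to the state `s`. -/
noncomputable def forgetStep (χ : α → ZMod p) (s : ZMod p) (q : ZMod p × Option α) (a : α) :
    ZMod p × Option α :=
  if χ a = 0 then q else if q.1 + χ a = s then (s, none) else (q.1 + χ a, some a)

section Run

variable (χ : α → ZMod p) (s : ZMod p) (y z : α)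

/-- the forbidden transitions -/
def pev (q : ZMod p × Option α) (a : α) : Prop :=
  χ a ≠ 0 ∧ q.1 + χ a = s ∧ ¬ (q.2 = some y ∧ a = z)

/-- the partial automaton -/
noncomputable abbrev pdel : ZMod p × Option α → α → Option (ZMod p × Option α) :=
  forbid (forgetStep χ s) (pev χ s y z)

variable {χ s y z}

theorem pdel_neutral {q : ZMod p × Option α} {a : α} (ha : χ a = 0) :
    pdel χ s y z q a = some q := by
  unfold pdel forbid
  rw [if_neg (fun h => h.1 ha)]
  unfold forgetStep
  rw [if_pos ha]

theorem pdel_some {q q' : ZMod p × Option α} {a : α} (h : pdel χ s y z q a = some q') :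
    ¬ pev χ s y z q a ∧ q' = forgetStep χ s q a := by
  unfold pdel forbid at h
  by_cases hev : pev χ s y z q a
  · rw [if_pos hev] at h
    exact absurd h (by simp)
  · rw [if_neg hev, Option.some.injEq] at h
    exact ⟨hev, h.symm⟩

theorem forgetStep_fst (q : ZMod p × Option α) (a : α) :
    (forgetStep χ s q a).1 = q.1 + χ a := by
  unfold forgetStep
  split_ifs with h1 h2
  · rw [h1, add_zero]
  · exact h2.symm
  · rfl

theorem prun_fst (w : List α) : ∀ {q q' : ZMod p × Option α},
    prun (pdel χ s y z) q w = some q' → q'.1 = q.1 + (w.map χ).sum := by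
  induction w with
  | nil =>
    intro q q' h
    simp only [prun, Option.some.injEq] at h
    simp [← h]
  | cons a w ih =>
    intro q q' h
    simp only [prun, Option.bind_eq_some_iff] at h
    obtain ⟨q1, h1, h2⟩ := h
    rw [ih h2, (pdel_some h1).2, forgetStep_fst, List.map_cons, List.sum_cons, add_assoc]

theorem prun_neutral (w : List α) (hw : ∀ a ∈ w, χ a = 0) (q : ZMod p × Option α) :
    prun (pdel χ s y z) q w = some q := by
  induction w with
  | nil => rfl
  | cons a w ih =>
    simp only [prun]
    rw [pdel_neutral (hw a List.mem_cons_self), Option.bind_some]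
    exact ih fun b hb => hw b (List.mem_cons_of_mem _ hb)

/-- the run up to and including a letter that is not neutral -/
theorem prun_letter {u v : List α} {c : α} (hc : χ c ≠ 0) {q q' : ZMod p × Option α}
    (h : prun (pdel χ s y z) q (u ++ c :: v) = some q') :
    ∃ q1, prun (pdel χ s y z) q u = some q1 ∧
      (q1.1 + χ c = s → q1.2 = some y ∧ c = z) ∧
      prun (pdel χ s y z) (q1.1 + χ c, if q1.1 + χ c = s then none else some c) v = some q' := by
  rw [prun_append, Option.bind_eq_some_iff] at h
  obtain ⟨q1, h1, h2⟩ := h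
  simp only [prun, Option.bind_eq_some_iff] at h2
  obtain ⟨q2, h2, h3⟩ := h2
  obtain ⟨h4, h5⟩ := pdel_some h2
  refine ⟨q1, h1, fun h6 => ?_, ?_⟩
  · by_contra h7
    exact h4 ⟨hc, h6, h7⟩
  · rw [h5] at h3
    unfold forgetStep at h3
    rw [if_neg hc] at h3
    split_ifs at h3 ⊢ with h6
    · rw [h6]; exact h3
    · exact h3

theorem last_letter {u v : List α} {c : α} (hc : χ c ≠ 0) (hv : ∀ a ∈ v, χ a = 0)
    {q q' : ZMod p × Option α} (h : prun (pdel χ s y z) q (u ++ c :: v) = some q') :
    q'.2 = if q'.1 = s then none else some c := by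
  obtain ⟨q1, h1, h2, h3⟩ := prun_letter hc h
  rw [prun_neutral v hv, Option.some.injEq] at h3
  rw [← h3]

theorem exists_last (w : List α) : (∀ a ∈ w, χ a = 0) ∨
    ∃ (u v : List α) (c : α), w = u ++ c :: v ∧ χ c ≠ 0 ∧ ∀ a ∈ v, χ a = 0 := by
  induction w with
  | nil => left; simp
  | cons a w ih =>
    rcases ih with h | ⟨u, v, c, h1, h2, h3⟩
    · by_cases ha : χ a = 0
      · left
        intro b hb
        rcases List.mem_cons.1 hb with rfl | hb
        · exact ha
        · exact h b hb
      · right
        exact ⟨[], w, a, rfl, ha, h⟩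
    · right
      exact ⟨a :: u, v, c, by rw [h1]; rfl, h2, h3⟩

theorem exists_first (w : List α) : (∀ a ∈ w, χ a = 0) ∨
    ∃ (u v : List α) (c : α), w = u ++ c :: v ∧ χ c ≠ 0 ∧ ∀ a ∈ u, χ a = 0 := by
  induction w with
  | nil => left; simp
  | cons a w ih =>
    by_cases ha : χ a = 0
    · rcases ih with h | ⟨u, v, c, h1, h2, h3⟩
      · left
        intro b hb
        rcases List.mem_cons.1 hb with rfl | hb
        · exact ha
        · exact h b hb
      · right
        refine ⟨a :: u, v, c, by rw [h1]; rfl, h2, fun b hb => ?_⟩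
        rcases List.mem_cons.1 hb with rfl | hb
        · exact ha
        · exact h3 b hb
    · right
      exact ⟨[], w, a, rfl, ha, by simp⟩

/-- powers of a word -/
theorem flatten_replicate_add (w : List α) (m n : ℕ) :
    (List.replicate (m + n) w).flatten =
      (List.replicate m w).flatten ++ (List.replicate n w).flatten := by
  rw [List.replicate_add, List.flatten_append]

theorem prun_pow_mul {w : List α} {n : ℕ} {q : ZMod p × Option α}
    (h : prun (pdel χ s y z) q (List.replicate n w).flatten = some q) (m : ℕ) :
    prun (pdel χ s y z) q (List.replicate (n * m) w).flatten = some q := by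
  induction m with
  | zero => rfl
  | succ m ih =>
    rw [Nat.mul_succ, flatten_replicate_add, prun_append, ih, Option.bind_some, h]

/-- the states at the beginning and at the end of the iteration number `k` -/
theorem prun_pow_step {w : List α} {N k : ℕ} (hk : k < N) {q q' : ZMod p × Option α}
    (h : prun (pdel χ s y z) q (List.replicate N w).flatten = some q') :
    ∃ q1 q2, prun (pdel χ s y z) q (List.replicate k w).flatten = some q1 ∧
      prun (pdel χ s y z) q1 w = some q2 ∧
      prun (pdel χ s y z) q (List.replicate (k + 1) w).flatten = some q2 := by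
  obtain ⟨m, rfl⟩ := Nat.exists_eq_add_of_lt hk
  have e : k + m + 1 = (k + 1) + m := by ring
  rw [e, flatten_replicate_add, prun_append, Option.bind_eq_some_iff] at h
  obtain ⟨q2, h1, -⟩ := h
  have h1' := h1
  rw [flatten_replicate_add, prun_append, Option.bind_eq_some_iff] at h1
  obtain ⟨q1, h2, h3⟩ := h1
  refine ⟨q1, q2, h2, ?_, h1'⟩
  simpa using h3

theorem sum_pow (w : List α) (k : ℕ) :
    ((List.replicate k w).flatten.map χ).sum = k * (w.map χ).sum := by
  induction k with
  | zero => simp
  | succ k ih =>
    rw [flatten_replicate_add, List.map_append, List.sum_append, ih]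
    simp
    ring

theorem exists_mul_eq [Fact p.Prime] {x : ZMod p} (hx : x ≠ 0) (d : ZMod p) :
    ∃ k : ℕ, k < p ∧ (k : ZMod p) * x = d := by
  refine ⟨(d * x⁻¹).val, ZMod.val_lt _, ?_⟩
  rw [ZMod.natCast_zmod_val, mul_assoc, inv_mul_cancel₀ hx, mul_one]

theorem pcf [Fact p.Prime] (hyz : y ≠ z) : CounterFree (pdel χ s y z) := by
  intro q w n hn h
  have hp0 : 0 < p := (Fact.out : p.Prime).pos
  rcases exists_last (χ := χ) w with hneu | ⟨u, v, c, hw, hc, hv⟩
  · exact prun_neutral w hneu q
  · obtain ⟨q0, q1, h0, h1, h1'⟩ := prun_pow_step (k := 0) hn h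
    simp only [List.replicate_zero, List.flatten_nil, prun, Option.some.injEq] at h0
    subst h0
    rw [h1]
    have hf1 := prun_fst w h1
    have hm1 : q1.2 = if q1.1 = s then none else some c := by
      rw [hw] at h1
      exact last_letter hc hv h1
    by_cases hW : (w.map χ).sum = 0
    · -- total weight zero
      rw [hW, add_zero] at hf1
      obtain ⟨m, rfl⟩ : ∃ m, n = m + 1 := ⟨n - 1, by omega⟩
      obtain ⟨q2, q3, h2, h3, h4⟩ := prun_pow_step (k := m) (by omega) h
      rw [h, Option.some.injEq] at h4
      subst h4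
      have hm3 : q.2 = if q.1 = s then none else some c := by
        rw [hw] at h3
        exact last_letter hc hv h3
      rw [Option.some.injEq]
      refine Prod.ext hf1 ?_
      rw [hm1, hm3, hf1]
    · exfalso
      have hN := prun_pow_mul h (p + 1)
      set N := n * (p + 1) with hNdef
      have hpN : p < N := by
        rw [hNdef]
        nlinarith
      -- the last letter is `z`
      have hcz : c = z := by
        obtain ⟨k, hk, hk2⟩ := exists_mul_eq hW (s - q.1 - (w.map χ).sum)
        obtain ⟨r1, r2, e1, e2, -⟩ := prun_pow_step (k := k) (by omega) hN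
        have f1 := prun_fst _ e1
        rw [sum_pow, hk2] at f1
        rw [hw] at e2
        obtain ⟨r3, e3, e4, -⟩ := prun_letter hc e2
        have f3 := prun_fst _ e3
        refine (e4 ?_).2
        rw [f3, f1, hw, List.map_append, List.map_cons, List.sum_append, List.sum_cons]
        have hv0 : (v.map χ).sum = 0 := by
          rw [List.sum_eq_zero]
          intro x hx
          obtain ⟨a, ha, rfl⟩ := List.mem_map.1 hx
          exact hv a ha
        rw [hv0]
        ring
      -- the first letter
      rcases exists_first (χ := χ) w with hneu | ⟨u', v', b, hw', hb, hu'⟩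
      · apply hW
        rw [List.sum_eq_zero]
        intro x hx
        obtain ⟨a, ha, rfl⟩ := List.mem_map.1 hx
        exact hneu a ha
      · obtain ⟨k, hk, hk2⟩ := exists_mul_eq hW (s - q.1 - (w.map χ).sum - χ b)
        obtain ⟨r1, r2, e1, e2, e3⟩ := prun_pow_step (k := k) (by omega) hN
        obtain ⟨r3, r4, e4, e5, -⟩ := prun_pow_step (k := k + 1) (by omega) hN
        rw [e3, Option.some.injEq] at e4
        subst e4
        have f1 := prun_fst _ e1
        rw [sum_pow, hk2] at f1
        have f2 := prun_fst _ e2
        have g2 : r2.2 = if r2.1 = s then none else some c := by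
          rw [hw] at e2
          exact last_letter hc hv e2
        rw [hw'] at e5
        obtain ⟨r5, e6, e7, -⟩ := prun_letter hb e5
        rw [prun_neutral u' hu', Option.some.injEq] at e6
        subst e6
        have h8 := (e7 (by rw [f2, f1]; ring)).1
        rw [g2] at h8
        split_ifs at h8 with h9
        rw [Option.some.injEq] at h8
        exact hyz (h8.symm.trans hcz)

end Run

theorem counterFree_pairs [Finite α] [Fact p.Prime] (χ : α → ZMod p) (s : ZMod p) (y z : α)
    (hyz : y ≠ z) :
    CounterFree (forbid (forgetStep χ s)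
      (fun q a => χ a ≠ 0 ∧ q.1 + χ a = s ∧ ¬ (q.2 = some y ∧ a = z))) :=
  pcf hyz

theorem ite_eq_sub {P Q R : Prop} [Decidable P] [Decidable Q] [Decidable R]
    (h1 : P ↔ Q ∧ ¬ R) (h2 : R → Q) :
    (if P then (1 : ℤ) else 0) = (if Q then 1 else 0) - (if R then 1 else 0) := by
  by_cases hR : R
  · rw [if_pos hR, if_pos (h2 hR), if_neg (fun h => (h1.1 h).2 hR)]
    rfl
  · by_cases hQ : Q
    · rw [if_neg hR, if_pos hQ, if_pos (h1.2 ⟨hQ, hR⟩)]
      rfl
    · rw [if_neg hR, if_neg hQ, if_neg (fun h => hQ (h1.1 h).1)]
      rfl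

/-- the two memories -/
theorem pairs_eq (χ : α → ZMod p) (y z : α) (hz : χ z ≠ 0) (s : ZMod p) (w : List α) :
    ∀ (x : ZMod p) (m m' : Option α), (m = m' ∨ (x = s ∧ m' = none)) →
      pairs χ y z s (x, m) w =
        events (fun (q : ZMod p) (a : α) => q + χ a) (fun q a => q + χ a = s ∧ χ a ≠ 0) x w -
        events (forgetStep χ s)
          (fun q a => χ a ≠ 0 ∧ q.1 + χ a = s ∧ ¬ (q.2 = some y ∧ a = z)) (x, m') w := by
  induction w with
  | nil => intro x m m' _; rfl
  | cons a w ih =>
    intro x m m' hm
    unfold pairs at ih ⊢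
    simp only [events]
    have k1 : (a = z ∧ m = some y ∧ x + χ a = s) ↔ (x + χ a = s ∧ χ a ≠ 0) ∧
        ¬ (χ a ≠ 0 ∧ x + χ a = s ∧ ¬ (m' = some y ∧ a = z)) := by
      constructor
      · rintro ⟨rfl, h2, h3⟩
        refine ⟨⟨h3, hz⟩, fun h => h.2.2 ⟨?_, rfl⟩⟩
        rcases hm with h | ⟨h, -⟩
        · rw [← h]; exact h2
        · exfalso
          apply hz
          rw [h] at h3
          simpa using h3
      · rintro ⟨⟨h1, h2⟩, h3⟩
        have h4 : m' = some y ∧ a = z := by
          by_contra h
          exact h3 ⟨h2, h1, h⟩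
        refine ⟨h4.2, ?_, h1⟩
        rcases hm with h | ⟨h, h'⟩
        · rw [h]; exact h4.1
        · rw [h'] at h4
          exact absurd h4.1 (by simp)
    rw [@ite_eq_sub _ _ _ (Classical.propDecidable _) (Classical.propDecidable _)
      (Classical.propDecidable _) k1 (fun h => ⟨h.2.1, h.1⟩)]
    by_cases ha : χ a = 0
    · have e1 : memStep χ (x, m) a = (x, m) := by unfold memStep; rw [if_pos ha]
      have e2 : forgetStep χ s (x, m') a = (x, m') := by unfold forgetStep; rw [if_pos ha]
      have e3 : events (fun (q : ZMod p) (a : α) => q + χ a)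
          (fun q a => q + χ a = s ∧ χ a ≠ 0) (x + χ a) w =
          events (fun (q : ZMod p) (a : α) => q + χ a)
          (fun q a => q + χ a = s ∧ χ a ≠ 0) x w := by rw [ha, add_zero]
      have := ih x m m' hm
      rw [e1, e2, this, e3]
      ring
    · have e1 : memStep χ (x, m) a = (x + χ a, some a) := by unfold memStep; rw [if_neg ha]
      by_cases hxs : x + χ a = s
      · have e2 : forgetStep χ s (x, m') a = (x + χ a, none) := by
          unfold forgetStep; rw [if_neg ha, if_pos hxs, hxs]
        have := ih (x + χ a) (some a) none (Or.inr ⟨hxs, rfl⟩)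
        rw [e1, e2, this]
        ring
      · have e2 : forgetStep χ s (x, m') a = (x + χ a, some a) := by
          unfold forgetStep; rw [if_neg ha, if_neg hxs]
        have := ih (x + χ a) (some a) (some a) (Or.inl rfl)
        rw [e1, e2, this]
        ring

theorem cnt_pairs [Finite α] [Fact p.Prime] (χ : α → ZMod p) (y z : α) (hyz : y ≠ z)
    (hy : χ y ≠ 0) (hz : χ z ≠ 0) (s t : ZMod p) :
    Cnt (pairs χ y z s (t, none)) := by
  have h1 := cnt_arrivals χ s (fun a => χ a ≠ 0) (fun _ h => h) t
  have h2 := cnt_events (forgetStep χ s)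
    (fun q a => χ a ≠ 0 ∧ q.1 + χ a = s ∧ ¬ (q.2 = some y ∧ a = z)) (s, none)
    (fun q a h => by unfold forgetStep; rw [if_neg h.1, if_pos h.2.1])
    (counterFree_pairs χ s y z hyz) (t, none)
  exact (h1.sub h2).congr fun w => (pairs_eq χ y z hz s w t none none (Or.inl rfl)).symm

end Vale.Agent.P329
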