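import Vale.Agent.Lib.P329.Closure

/-!
Schutzenberger's theorem: a language recognized by a finite aperiodic monoid is star-free.
The proof follows Diekert and Kufleitner (local divisors).
-/

namespace Vale.Agent.P329

namespace Schutz

universe u

section closure
variable {α : Type u} {n : ℕ}

theorem mul_pred {p q : List α → Prop} (hp : HeightLE n ({w | p w} : Language α))
    (hq : HeightLE n ({w | q w} : Language α)) :
    HeightLE n ({w | ∃ x y, p x ∧ q y ∧ w = x ++ y} : Language α) := by
  obtain ⟨P, hP, hn⟩ := HeightLE.mul hp hq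
  refine ⟨P, ?_, hn⟩
  rw [hP]
  ext w
  refine Language.mem_mul.trans ?_
  constructor
  · rintro ⟨x, hx, y, hy, rfl⟩
    exact ⟨x, y, hx, hy, rfl⟩
  · rintro ⟨x, y, hx, hy, rfl⟩
    exact ⟨x, hx, y, hy, rfl⟩

theorem word_pred (n : ℕ) (v : List α) : HeightLE n ({w | w = v} : Language α) :=
  HeightLE.word n v

/-- words containing the letter `a` -/
theorem mem_pred (n : ℕ) (a : α) : HeightLE n ({w | a ∈ w} : Language α) := by
  have h := mul_pred (mul_pred (HeightLE.const (α := α) n True) (word_pred n [a]))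
    (HeightLE.const (α := α) n True)
  refine h.congr fun w => ?_
  constructor
  · rintro ⟨x, y, ⟨x1, x2, -, rfl, rfl⟩, -, rfl⟩
    simp
  · intro hw
    obtain ⟨s, t, rfl⟩ := List.append_of_mem hw
    exact ⟨s ++ [a], t, ⟨s, [a], trivial, rfl, rfl⟩, trivial, by simp⟩

/-- words over the set of letters `B` -/
theorem over_pred [Finite α] (n : ℕ) (B : Set α) :
    HeightLE n ({w | ∀ a ∈ w, a ∈ B} : Language α) := by
  have h : HeightLE n ({w | ∃ a : {a : α // a ∉ B}, (a : α) ∈ w} : Language α) :=
    HeightLE.exists_finite fun a => mem_pred n (a : α)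
  refine (HeightLE.not h).congr fun w => ?_
  constructor
  · intro hw a ha
    by_contra hB
    exact hw ⟨⟨a, hB⟩, ha⟩
  · rintro hw ⟨⟨a, hB⟩, ha⟩
    exact hB (hw a ha)

end closure

/-! Local divisors. -/

section localdiv
variable {M : Type} [Monoid M]

/-- the carrier of the local divisor of `M` at `c` -/
def LD (c : M) : Type := {x : M // (∃ a, x = c * a) ∧ ∃ b, x = b * c}

variable {c : M}

/-- a left factor -/
noncomputable def LD.fac (x : LD c) : M := Classical.choose x.2.2

theorem LD.fac_spec (x : LD c) : x.1 = x.fac * c := Classical.choose_spec x.2.2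

noncomputable instance : Mul (LD c) where
  mul x y := ⟨x.fac * y.1, by
    obtain ⟨⟨a, ha⟩, b, hb⟩ := x.2
    obtain ⟨⟨a', ha'⟩, b', hb'⟩ := y.2
    refine ⟨⟨a * a', ?_⟩, ⟨x.fac * b', ?_⟩⟩
    · rw [ha', ← mul_assoc, ← x.fac_spec, ha, mul_assoc]
    · rw [hb', mul_assoc]⟩

theorem LD.mul_val (x y : LD c) {b : M} (hb : x.1 = b * c) : (x * y).1 = b * y.1 := by
  change x.fac * y.1 = b * y.1
  obtain ⟨a, ha⟩ := y.2.1
  rw [ha, ← mul_assoc, ← mul_assoc, ← x.fac_spec, hb]

instance : One (LD c) where
  one := ⟨c, ⟨1, (mul_one c).symm⟩, ⟨1, (one_mul c).symm⟩⟩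

theorem LD.one_val : (1 : LD c).1 = c := rfl

noncomputable instance : Monoid (LD c) where
  mul_assoc x y z := by
    apply Subtype.ext
    have hx := x.fac_spec
    have hy := y.fac_spec
    have h1 : (x * y).1 = (x.fac * y.fac) * c := by
      rw [LD.mul_val x y hx, mul_assoc, ← hy]
    rw [LD.mul_val _ z h1, LD.mul_val x _ hx, LD.mul_val y z hy, mul_assoc]
  one_mul x := by
    apply Subtype.ext
    rw [LD.mul_val 1 x (b := 1) (by rw [LD.one_val, one_mul]), one_mul]
  mul_one x := by
    apply Subtype.ext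
    rw [LD.mul_val x 1 x.fac_spec, LD.one_val, ← x.fac_spec]

theorem LD.pow_val (x : LD c) {b : M} (hb : x.1 = b * c) (n : ℕ) : (x ^ n).1 = b ^ n * c := by
  induction n with
  | zero => rw [pow_zero, pow_zero, one_mul, LD.one_val]
  | succ n ih => rw [pow_succ', LD.mul_val x _ hb, ih, pow_succ', mul_assoc]

theorem LD.aperiodic (hM : ∀ x : M, ∃ n : ℕ, x ^ n = x ^ (n + 1)) (x : LD c) :
    ∃ n : ℕ, x ^ n = x ^ (n + 1) := by
  obtain ⟨n, hn⟩ := hM x.fac
  refine ⟨n, Subtype.ext ?_⟩
  rw [LD.pow_val x x.fac_spec, LD.pow_val x x.fac_spec, hn]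

theorem LD.card_lt [Finite M] (hM : ∀ x : M, ∃ n : ℕ, x ^ n = x ^ (n + 1)) (hc : c ≠ 1) :
    Nat.card (LD c) < Nat.card M := by
  refine Finite.card_subtype_lt (x := (1 : M)) ?_
  rintro ⟨⟨a, ha⟩, b, hb⟩
  have hu : IsUnit c := by
    have hab : a = b := by
      calc a = (b * c) * a := by rw [← hb, one_mul]
        _ = b * (c * a) := mul_assoc _ _ _
        _ = b := by rw [← ha, mul_one]
    exact ⟨⟨c, a, ha.symm, by rw [hab]; exact hb.symm⟩, rfl⟩
  obtain ⟨n, hn⟩ := hM c
  apply hc
  have hun : IsUnit (c ^ n) := hu.pow n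
  have h1 : c ^ n * 1 = c ^ n * c := by rw [mul_one, ← pow_succ]; exact hn
  exact (hun.mul_left_cancel h1).symm

instance [Finite M] : Finite (LD c) := by
  unfold LD; infer_instance

/-- the map `t ↦ c t c` -/
def psi (c : M) (t : M) : LD c := ⟨c * t * c, ⟨t * c, by rw [mul_assoc]⟩, ⟨c * t, rfl⟩⟩

theorem prod_psi (s : List M) :
    ((s.map (psi c)).prod).1 = c * (s.map (fun t => t * c)).prod := by
  induction s with
  | nil => simp [LD.one_val]
  | cons t s ih =>
    rw [List.map_cons, List.prod_cons, LD.mul_val (psi c t) _ (b := c * t) rfl, ih,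
      List.map_cons, List.prod_cons, mul_assoc, mul_assoc]

end localdiv

/-! Block decomposition. -/

section blocks
variable {α : Type} {M : Type} [Monoid M] (φ : α → M) (B1 : Set α) (c : α)

/-- `d` is a product of blocks `v c`, `v` over `B1`, and `s` is the list of values of the blocks -/
def Blk (d : List α) (s : List M) : Prop :=
  ∃ vs : List (List α), (∀ v ∈ vs, ∀ a ∈ v, a ∈ B1) ∧
    d = (vs.map (fun v => v ++ [c])).flatten ∧ s = vs.map (fun v => (v.map φ).prod)

variable {φ B1 c}

omit [Monoid M] in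
theorem append_cons_inj' {α : Type} {c : α} : ∀ {x x' y y' : List α}, c ∉ x → c ∉ x' →
    x ++ c :: y = x' ++ c :: y' → x = x' ∧ y = y' := by
  intro x
  induction x with
  | nil =>
    intro x' y y' _ h2 h
    cases x' with
    | nil => simpa using h
    | cons b x' =>
      simp only [List.nil_append, List.cons_append, List.cons.injEq] at h
      exact absurd (by rw [h.1]; simp) h2
  | cons a x ih =>
    intro x' y y' h1 h2 h
    cases x' with
    | nil =>
      simp only [List.nil_append, List.cons_append, List.cons.injEq] at h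
      exact absurd (by rw [← h.1]; simp) h1
    | cons b x' =>
      simp only [List.cons_append, List.cons.injEq] at h
      obtain ⟨e1, e2⟩ := ih (fun hc => h1 (List.mem_cons_of_mem _ hc))
        (fun hc => h2 (List.mem_cons_of_mem _ hc)) h.2
      exact ⟨by rw [h.1, e1], e2⟩

theorem flatten_inj (hc : c ∉ B1) : ∀ (vs vs' : List (List α)), (∀ v ∈ vs, ∀ a ∈ v, a ∈ B1) →
    (∀ v ∈ vs', ∀ a ∈ v, a ∈ B1) →
    (vs.map (fun v => v ++ [c])).flatten = (vs'.map (fun v => v ++ [c])).flatten → vs = vs' := by
  intro vs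
  induction vs with
  | nil =>
    intro vs' _ _ h
    cases vs' with
    | nil => rfl
    | cons v' vs' => simp at h
  | cons v vs ih =>
    intro vs' h1 h2 h
    cases vs' with
    | nil => simp at h
    | cons v' vs' =>
      simp only [List.map_cons, List.flatten_cons, List.append_assoc, List.singleton_append] at h
      have hv : c ∉ v := fun hcv => hc (h1 v (by simp) c hcv)
      have hv' : c ∉ v' := fun hcv => hc (h2 v' (by simp) c hcv)
      obtain ⟨e1, e2⟩ := append_cons_inj' hv hv' h
      rw [e1, ih vs' (fun w hw => h1 w (by simp [hw])) (fun w hw => h2 w (by simp [hw])) e2]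

theorem Blk.unique (hc : c ∉ B1) {d : List α} {s s' : List M} (h : Blk φ B1 c d s)
    (h' : Blk φ B1 c d s') : s = s' := by
  obtain ⟨vs, h1, rfl, rfl⟩ := h
  obtain ⟨vs', h1', h2, rfl⟩ := h'
  rw [flatten_inj hc vs vs' h1 h1' h2]

theorem Blk.append {d d' : List α} {s s' : List M} (h : Blk φ B1 c d s)
    (h' : Blk φ B1 c d' s') : Blk φ B1 c (d ++ d') (s ++ s') := by
  obtain ⟨vs, h1, rfl, rfl⟩ := h
  obtain ⟨vs', h1', rfl, rfl⟩ := h'
  refine ⟨vs ++ vs', ?_, by simp, by simp⟩
  intro v hv
  rcases List.mem_append.mp hv with hv | hv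
  · exact h1 v hv
  · exact h1' v hv

theorem Blk.split {d : List α} {s s' : List M} (h : Blk φ B1 c d (s ++ s')) :
    ∃ x y, Blk φ B1 c x s ∧ Blk φ B1 c y s' ∧ d = x ++ y := by
  obtain ⟨vs, h1, rfl, h2⟩ := h
  obtain ⟨vs1, vs2, rfl, e1, e2⟩ := List.map_eq_append_iff.mp h2.symm
  refine ⟨_, _, ⟨vs1, fun v hv => h1 v (by simp [hv]), rfl, e1.symm⟩,
    ⟨vs2, fun v hv => h1 v (by simp [hv]), rfl, e2.symm⟩, by simp⟩

theorem Blk.nil_iff {d : List α} : Blk φ B1 c d [] ↔ d = [] := by
  constructor
  · rintro ⟨vs, -, rfl, h⟩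
    have : vs = [] := List.map_eq_nil_iff.mp h.symm
    subst this; rfl
  · rintro rfl
    exact ⟨[], by simp, rfl, rfl⟩

theorem Blk.single_iff {d : List α} {t : M} : Blk φ B1 c d [t] ↔
    ∃ x y, ((∀ a ∈ x, a ∈ B1) ∧ (x.map φ).prod = t) ∧ y = [c] ∧ d = x ++ y := by
  constructor
  · rintro ⟨vs, h1, rfl, h⟩
    obtain ⟨v, rfl, hv⟩ := List.map_eq_singleton_iff.mp h.symm
    exact ⟨v, [c], ⟨h1 v (by simp), hv⟩, rfl, by simp⟩
  · rintro ⟨x, y, ⟨h1, rfl⟩, rfl, rfl⟩
    exact ⟨[x], by simpa using h1, by simp, by simp⟩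

theorem Blk.prod {d : List α} {s : List M} (h : Blk φ B1 c d s) :
    (d.map φ).prod = (s.map (fun t => t * φ c)).prod := by
  obtain ⟨vs, -, rfl, rfl⟩ := h
  induction vs with
  | nil => simp
  | cons v vs ih =>
    simp only [List.map_cons, List.flatten_cons, List.map_append, List.prod_append,
      List.prod_cons, List.map_nil, List.prod_nil, mul_one]
    rw [ih]

/-- block words are the words which are empty or end with `c` -/
theorem exists_blk_iff {B : Set α} (hB : ∀ a, a ∈ B ↔ a ∈ B1 ∨ a = c) {d : List α} :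
    (∃ s, Blk φ B1 c d s) ↔ (∀ a ∈ d, a ∈ B) ∧ (d = [] ∨ ∃ x y, True ∧ y = [c] ∧ d = x ++ y) := by
  constructor
  · rintro ⟨s, vs, h1, rfl, -⟩
    constructor
    · intro a ha
      rw [List.mem_flatten] at ha
      obtain ⟨l, hl, hal⟩ := ha
      rw [List.mem_map] at hl
      obtain ⟨v, hv, rfl⟩ := hl
      rw [List.mem_append, List.mem_singleton] at hal
      rw [hB]
      rcases hal with hal | hal
      · exact Or.inl (h1 v hv a hal)
      · exact Or.inr hal
    · rcases List.eq_nil_or_concat vs with h | ⟨vs', v, h⟩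
      · left; rw [h]; rfl
      · right
        refine ⟨(vs'.map (fun v => v ++ [c])).flatten ++ v, [c], trivial, rfl, ?_⟩
        rw [h]
        simp
  · intro h
    suffices H : ∀ (k : ℕ) (d : List α), d.length ≤ k → (∀ a ∈ d, a ∈ B) →
        (d = [] ∨ ∃ x y, True ∧ y = [c] ∧ d = x ++ y) → ∃ s, Blk φ B1 c d s from
      H d.length d le_rfl h.1 h.2
    intro k
    induction k with
    | zero =>
      intro d hd _ _
      have : d = [] := List.length_eq_zero_iff.mp (Nat.le_zero.mp hd)
      exact ⟨[], Blk.nil_iff.mpr this⟩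
    | succ k ih =>
      intro d hd hover hend
      rcases hend with h0 | ⟨x, y, -, rfl, hdx⟩
      · exact ⟨[], Blk.nil_iff.mpr h0⟩
      · have hcd : c ∈ d := by rw [hdx]; simp
        obtain ⟨v, rest, e, hv⟩ := List.eq_append_cons_of_mem hcd
        have hvB : ∀ a ∈ v, a ∈ B1 := by
          intro a ha
          rcases (hB a).mp (hover a (by rw [e]; simp [ha])) with h1 | h1
          · exact h1
          · subst h1; exact absurd ha hv
        have hrest : ∃ s, Blk φ B1 c rest s := by
          refine ih rest ?_ (fun a ha => hover a (by rw [e]; simp [ha])) ?_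
          · rw [e] at hd
            simp only [List.length_append, List.length_cons] at hd
            omega
          · rcases List.eq_nil_or_concat rest with h1 | ⟨r, b, h1⟩
            · left; exact h1
            · right
              refine ⟨r, [c], trivial, rfl, ?_⟩
              rw [h1] at e
              have e2 : (v ++ c :: r) ++ [b] = x ++ [c] := by
                rw [← hdx, e]; simp
              have := List.append_inj_right' e2 rfl
              rw [h1, List.concat_eq_append, this]
        obtain ⟨s, hs⟩ := hrest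
        refine ⟨[(v.map φ).prod] ++ s, ?_⟩
        have h2 : Blk φ B1 c (v ++ [c]) [(v.map φ).prod] :=
          Blk.single_iff.mpr ⟨v, [c], ⟨hvB, rfl⟩, rfl, rfl⟩
        have h3 := h2.append hs
        rw [e]
        simpa using h3

/-- transfer of star-free languages through the block decomposition -/
theorem transfer [Finite α] {B : Set α} (hB : ∀ a, a ∈ B ↔ a ∈ B1 ∨ a = c) (hc : c ∉ B1)
    (hL : ∀ t : M, HeightLE 0 ({w | (∀ a ∈ w, a ∈ B1) ∧ (w.map φ).prod = t} : Language α))
    (P : GRE M) (hP : P.starHeight ≤ 0) :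
    HeightLE 0 ({d | ∃ s, Blk φ B1 c d s ∧ s ∈ P.lang} : Language α) := by
  induction P with
  | zero =>
    refine (HeightLE.const (α := α) 0 False).congr fun w => ?_
    constructor
    · exact False.elim
    · rintro ⟨s, -, hs⟩
      exact hs
  | one =>
    refine (word_pred 0 ([] : List α)).congr fun w => ?_
    constructor
    · rintro rfl
      exact ⟨[], Blk.nil_iff.mpr rfl, rfl⟩
    · rintro ⟨s, h1, hs⟩
      have hs' : s = [] := hs
      subst hs'
      exact Blk.nil_iff.mp h1
  | letter t =>
    refine (mul_pred (hL t) (word_pred 0 [c])).congr fun w => ?_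
    constructor
    · intro h
      exact ⟨[t], Blk.single_iff.mpr h, rfl⟩
    · rintro ⟨s, h1, hs⟩
      have hs' : s = [t] := hs
      subst hs'
      exact Blk.single_iff.mp h1
  | plus P Q ihP ihQ =>
    have hP' : max P.starHeight Q.starHeight ≤ 0 := hP
    have h1 := ihP ((le_max_left _ _).trans hP')
    have h2 := ihQ ((le_max_right _ _).trans hP')
    refine (HeightLE.or h1 h2).congr fun w => ?_
    constructor
    · rintro (⟨s, hs, hs'⟩ | ⟨s, hs, hs'⟩)
      · exact ⟨s, hs, Or.inl hs'⟩
      · exact ⟨s, hs, Or.inr hs'⟩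
    · rintro ⟨s, hs, hs' | hs'⟩
      · exact Or.inl ⟨s, hs, hs'⟩
      · exact Or.inr ⟨s, hs, hs'⟩
  | comp P Q ihP ihQ =>
    have hP' : max P.starHeight Q.starHeight ≤ 0 := hP
    have h1 := ihP ((le_max_left _ _).trans hP')
    have h2 := ihQ ((le_max_right _ _).trans hP')
    refine (mul_pred h1 h2).congr fun w => ?_
    constructor
    · rintro ⟨x, y, ⟨s, hs, hs'⟩, ⟨s2, hs2, hs2'⟩, rfl⟩
      exact ⟨s ++ s2, hs.append hs2, Language.append_mem_mul hs' hs2'⟩
    · rintro ⟨s, hs, hs'⟩
      have hs'' : s ∈ P.lang * Q.lang := hs'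
      rw [Language.mem_mul] at hs''
      obtain ⟨s1, h3, s2, h4, rfl⟩ := hs''
      obtain ⟨x, y, hx, hy, rfl⟩ := hs.split
      exact ⟨x, y, ⟨s1, hx, h3⟩, ⟨s2, hy, h4⟩, rfl⟩
  | compl P ihP =>
    have hP' : P.starHeight ≤ 0 := hP
    have h1 := ihP hP'
    have hD : HeightLE 0 ({d | (∀ a ∈ d, a ∈ B) ∧
        (d = [] ∨ ∃ x y, True ∧ y = [c] ∧ d = x ++ y)} : Language α) :=
      HeightLE.and (over_pred 0 B) (HeightLE.or (word_pred 0 [])
        (mul_pred (HeightLE.const (α := α) 0 True) (word_pred 0 [c])))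
    refine (HeightLE.and hD (HeightLE.not h1)).congr fun w => ?_
    constructor
    · rintro ⟨h2, h3⟩
      obtain ⟨s, hs⟩ := (exists_blk_iff (φ := φ) hB).mpr h2
      exact ⟨s, hs, fun hs' => h3 ⟨s, hs, hs'⟩⟩
    · rintro ⟨s, hs, hs'⟩
      refine ⟨(exists_blk_iff (φ := φ) hB).mp ⟨s, hs⟩, ?_⟩
      rintro ⟨s2, hs2, hs2'⟩
      rw [hs2.unique hc hs] at hs2'
      exact hs' hs2'
  | star P _ =>
    exact absurd hP (by simp [GRE.starHeight])

end blocks

/-- splitting off the last block of letters different from `c` -/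
theorem split_last {α : Type} {B B1 : Set α} {c : α} (hB : ∀ a, a ∈ B ↔ a ∈ B1 ∨ a = c)
    (w : List α) (hw : ∀ a ∈ w, a ∈ B) : ∃ d v : List α, w = d ++ v ∧ (∀ a ∈ v, a ∈ B1) ∧
      (∀ a ∈ d, a ∈ B) ∧ (d = [] ∨ ∃ x y, True ∧ y = [c] ∧ d = x ++ y) := by
  induction w using List.reverseRecOn with
  | nil => exact ⟨[], [], rfl, by simp, by simp, Or.inl rfl⟩
  | append_singleton w b ih =>
    rcases (hB b).mp (hw b (by simp)) with h | h
    · obtain ⟨d, v, rfl, h1, h2, h3⟩ := ih (fun a ha => hw a (by
        rw [List.mem_append]; exact Or.inl ha))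
      refine ⟨d, v ++ [b], by simp, ?_, h2, h3⟩
      intro a ha
      rw [List.mem_append, List.mem_singleton] at ha
      rcases ha with ha | ha
      · exact h1 a ha
      · rw [ha]; exact h
    · refine ⟨w ++ [b], [], by simp, by simp, hw, Or.inr ⟨w, [b], trivial, by rw [h], rfl⟩⟩

theorem main (k : ℕ) : ∀ (M : Type) [Monoid M] [Finite M], Nat.card M ≤ k →
    (∀ x : M, ∃ n : ℕ, x ^ n = x ^ (n + 1)) → ∀ (α : Type) [Finite α] (φ : α → M) (j : ℕ)
    (B : Set α), B.ncard ≤ j → ∀ m : M,
    HeightLE 0 ({w | (∀ a ∈ w, a ∈ B) ∧ (w.map φ).prod = m} : Language α) := by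
  induction k with
  | zero =>
    intro M _ _ hk
    have : 0 < Nat.card M := Nat.card_pos
    omega
  | succ k ihk =>
    intro M _ _ hk hM α _ φ j
    induction j with
    | zero =>
      intro B hB m
      have hB0 : B = ∅ := (Set.ncard_eq_zero (Set.toFinite B)).mp (Nat.le_zero.mp hB)
      refine (HeightLE.and (word_pred 0 ([] : List α))
        (HeightLE.const (α := α) 0 ((1 : M) = m))).congr fun w => ?_
      constructor
      · rintro ⟨rfl, h⟩
        exact ⟨by simp, by simpa using h⟩
      · rintro ⟨h1, h2⟩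
        have : w = [] := by
          rw [List.eq_nil_iff_forall_not_mem]
          intro a ha
          have := h1 a ha
          rw [hB0] at this
          exact this
        subst this
        exact ⟨rfl, by simpa using h2⟩
    | succ j ihj =>
      intro B hBj m
      by_cases hex : ∃ c ∈ B, φ c ≠ 1
      · obtain ⟨c, hcB, hc1⟩ := hex
        set B1 : Set α := B \ {c} with hB1
        have hB : ∀ a, a ∈ B ↔ a ∈ B1 ∨ a = c := by
          intro a
          rw [hB1, Set.mem_sdiff, Set.mem_singleton_iff]
          constructor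
          · intro h
            by_cases hac : a = c
            · exact Or.inr hac
            · exact Or.inl ⟨h, hac⟩
          · rintro (h | h)
            · exact h.1
            · rw [h]; exact hcB
        have hcB1 : c ∉ B1 := by rw [hB1]; simp
        have hcard : B1.ncard ≤ j := by
          have : B1.ncard < B.ncard := Set.ncard_sdiff_singleton_lt_of_mem hcB (Set.toFinite B)
          omega
        have hL := ihj B1 hcard
        -- the languages of the words over the monoid
        have hK : ∀ y : LD (φ c), HeightLE 0 ({d | ∃ s, Blk φ B1 c d s ∧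
            (s.map (psi (φ c))).prod = y} : Language α) := by
          intro y
          have hcd := LD.card_lt hM hc1
          obtain ⟨P, hP1, hP2⟩ := ihk (LD (φ c)) (by omega) (LD.aperiodic hM) M (psi (φ c))
            (Set.univ : Set M).ncard Set.univ le_rfl y
          refine (transfer hB hcB1 hL P hP2).congr fun w => ?_
          rw [hP1]
          constructor
          · rintro ⟨s, hs, -, hs'⟩
            exact ⟨s, hs, hs'⟩
          · rintro ⟨s, hs, hs'⟩
            exact ⟨s, hs, fun a _ => Set.mem_univ a, hs'⟩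
        have hE : ∀ y : M, HeightLE 0 ({d | ∃ y' : LD (φ c), y'.1 = y ∧
            ∃ s, Blk φ B1 c d s ∧ (s.map (psi (φ c))).prod = y'} : Language α) := fun y =>
          HeightLE.exists_finite fun y' => HeightLE.and (HeightLE.const 0 _) (hK y')
        have hbig : HeightLE 0 ({w | ∃ t : M × M × M, t.1 * t.2.1 * t.2.2 = m ∧
            ∃ x y, ((∀ a ∈ x, a ∈ B1) ∧ (x.map φ).prod = t.1) ∧
            (∃ x' y', x' = [c] ∧ (∃ x'' y'', (∃ y' : LD (φ c), y'.1 = t.2.1 ∧
              ∃ s, Blk φ B1 c x'' s ∧ (s.map (psi (φ c))).prod = y') ∧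
              ((∀ a ∈ y'', a ∈ B1) ∧ (y''.map φ).prod = t.2.2) ∧ y' = x'' ++ y'') ∧
              y = x' ++ y') ∧ w = x ++ y} : Language α) :=
          HeightLE.exists_finite fun t => HeightLE.and (HeightLE.const 0 _)
            (mul_pred (hL t.1) (mul_pred (word_pred 0 [c]) (mul_pred (hE t.2.1) (hL t.2.2))))
        refine (HeightLE.or (hL m) hbig).congr fun w => ?_
        constructor
        · rintro (⟨h1, h2⟩ | ⟨⟨x0, y0, z0⟩, ht, x, y, ⟨hx1, hx2⟩, ⟨x', y', hx', ⟨x'', y'',
            ⟨yy, hyy, s, hs, hs'⟩, ⟨hy1, hy2⟩, hy'⟩, hy⟩, hw⟩)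
          · exact ⟨fun a ha => (hB a).mpr (Or.inl (h1 a ha)), h2⟩
          · subst hw hy hy' hx'
            have hblk := (exists_blk_iff (φ := φ) hB).mp ⟨s, hs⟩
            constructor
            · intro a ha
              simp only [List.mem_append, List.mem_singleton] at ha
              rcases ha with ha | ha | ha | ha
              · exact (hB a).mpr (Or.inl (hx1 a ha))
              · rw [ha]; exact hcB
              · exact hblk.1 a ha
              · exact (hB a).mpr (Or.inl (hy1 a ha))
            · have e1 : φ c * (x''.map φ).prod = y0 := by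
                rw [hs.prod, ← prod_psi, hs', hyy]
              simp only [List.map_append, List.prod_append, List.map_cons, List.map_nil,
                List.prod_cons, List.prod_nil, mul_one]
              rw [hx2, hy2]
              rw [← ht]
              simp only
              rw [← e1]
              simp only [mul_assoc]
        · rintro ⟨h1, h2⟩
          by_cases hcw : c ∈ w
          · right
            obtain ⟨v, rest, e, hv⟩ := List.eq_append_cons_of_mem hcw
            have hvB : ∀ a ∈ v, a ∈ B1 := by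
              intro a ha
              rcases (hB a).mp (h1 a (by rw [e]; simp [ha])) with h3 | h3
              · exact h3
              · subst h3; exact absurd ha hv
            obtain ⟨d, z, hrest, hz, hd1, hd2⟩ := split_last hB rest
              (fun a ha => h1 a (by rw [e]; simp [ha]))
            obtain ⟨s, hs⟩ := (exists_blk_iff (φ := φ) hB).mpr ⟨hd1, hd2⟩
            refine ⟨((v.map φ).prod, φ c * (d.map φ).prod, (z.map φ).prod), ?_, v, c :: rest,
              ⟨hvB, rfl⟩, ⟨[c], rest, rfl, ⟨d, z, ⟨(s.map (psi (φ c))).prod, ?_, s, hs, rfl⟩,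
              ⟨hz, rfl⟩, hrest⟩, rfl⟩, e⟩
            · rw [← h2, e, hrest]
              simp [mul_assoc]
            · rw [prod_psi, hs.prod]
          · left
            refine ⟨fun a ha => ?_, h2⟩
            rcases (hB a).mp (h1 a ha) with h3 | h3
            · exact h3
            · subst h3; exact absurd ha hcw
      · push Not at hex
        refine (HeightLE.and (over_pred 0 B)
          (HeightLE.const (α := α) 0 ((1 : M) = m))).congr fun w => ?_
        have hone : (∀ a ∈ w, a ∈ B) → (w.map φ).prod = 1 := by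
          intro h
          apply List.prod_eq_one
          intro x hx
          rw [List.mem_map] at hx
          obtain ⟨a, ha, rfl⟩ := hx
          exact hex a (h a ha)
        constructor
        · rintro ⟨h1, h2⟩
          exact ⟨h1, by rw [hone h1]; exact h2⟩
        · rintro ⟨h1, h2⟩
          exact ⟨h1, by rw [← h2, hone h1]⟩

end Schutz

/-- Every language recognized by a finite aperiodic monoid is star-free, that is, of generalized
star height `0`. -/
theorem starFree_of_aperiodic {α : Type} [Finite α] {M : Type} [Monoid M] [Finite M]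
    (hM : ∀ x : M, ∃ n : ℕ, x ^ n = x ^ (n + 1)) (φ : α → M) (S : Set M) :
    HeightLE 0 ({w | (w.map φ).prod ∈ S} : Language α) := by
  have h : HeightLE 0 ({w | ∃ m : S, (∀ a ∈ w, a ∈ (Set.univ : Set α)) ∧
      (w.map φ).prod = m} : Language α) :=
    HeightLE.exists_finite fun m => Schutz.main (Nat.card M) M le_rfl hM α φ
      (Set.univ : Set α).ncard Set.univ le_rfl m
  refine h.congr fun w => ?_
  constructor
  · rintro ⟨m, -, h2⟩
    rw [h2]; exact m.2
  · intro hw
    exact ⟨⟨_, hw⟩, fun a _ => Set.mem_univ a, rfl⟩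

end Vale.Agent.P329
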