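import Vale.Agent.Lib.P329.Master

/-!
Counting how often a letter is read in a given state of an automaton given by an abelian group.
-/

namespace Vale.Agent.P329

open Classical in
/-- The number of times the letter `a` is read in state `s`, along the run that starts in state
`t` and moves from state `q` to state `q + χ b` when the letter `b` is read. -/
noncomputable def visits {K α : Type} [AddCommGroup K] (χ : α → K) (a : α) (s : K) :
    K → List α → ℤ
  | _, [] => 0
  | t, b :: w => (if b = a ∧ t = s then 1 else 0) + visits χ a s (t + χ b) w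

open Classical in
/-- The number of occurrences of a letter. -/
theorem cnt_count {α : Type} [Finite α] (a : α) : Cnt (fun w : List α => (w.count a : ℤ)) := by
  have h := cnt_events (Q := Unit) (α := α) (fun _ _ => ()) (fun _ b => b = a) ()
    (fun _ _ _ => rfl) (by
      intro q w n hn h
      obtain ⟨n, rfl⟩ := Nat.exists_eq_succ_of_ne_zero hn.ne'
      rw [List.replicate_succ, List.flatten_cons, prun_append] at h
      cases hc : prun (forbid (fun (_ : Unit) (_ : α) => ()) (fun _ b => b = a)) q w with
      | none => rw [hc] at h; simp at h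
      | some q' => rfl) ()
  refine h.congr ?_
  intro w
  induction w with
  | nil => simp [events]
  | cons b w ih =>
    rw [events, ih, List.count_cons]
    by_cases hb : b = a
    · simp [hb]; ring
    · simp [hb]

open Classical in
theorem sum_visits {K α : Type} [AddCommGroup K] [Fintype K] (χ : α → K) (a : α) (t : K)
    (w : List α) : ∑ s : K, visits χ a s t w = (w.count a : ℤ) := by
  induction w generalizing t with
  | nil => simp [visits]
  | cons b w ih =>
    simp only [visits]
    rw [Finset.sum_add_distrib, ih, List.count_cons]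
    by_cases hb : b = a
    · simp [hb]; ring
    · simp [hb]

open Classical in
theorem sum_map_eq_sum_count {K α : Type} [AddCommGroup K] [Fintype α] (χ : α → K)
    (w : List α) : (w.map χ).sum = ∑ a : α, w.count a • χ a := by
  induction w with
  | nil => simp
  | cons b w ih =>
    rw [List.map_cons, List.sum_cons, ih]
    simp only [List.count_cons, add_nsmul]
    rw [Finset.sum_add_distrib, add_comm]
    congr 1
    rw [Finset.sum_eq_single b]
    · simp
    · intro c _ hc
      have : ¬ b = c := fun h => hc h.symm
      simp [this]
    · intro h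
      exact absurd (Finset.mem_univ b) h

/-- Languages recognized by finite abelian groups. -/
theorem height_abelian {K α : Type} [AddCommGroup K] [Finite K] [Finite α] (χ : α → K)
    (S : Set K) : HeightLE 1 ({w | (w.map χ).sum ∈ S} : Language α) := by
  classical
  have : Fintype α := Fintype.ofFinite α
  set n := Nat.card K with hn
  have hn0 : 0 < n := Nat.card_pos
  have hsmul : ∀ x : K, n • x = 0 := fun x => card_nsmul_eq_zero'
  have hmod : ∀ (x : K) (c r : ℕ), (n : ℤ) ∣ (c : ℤ) - r → c • x = r • x := by
    intro x c r ⟨d, hd⟩
    rw [← natCast_zsmul, ← natCast_zsmul]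
    have : (c : ℤ) = r + n * d := by linarith
    rw [this, add_zsmul, mul_comm, mul_zsmul, natCast_zsmul, natCast_zsmul, hsmul, smul_zero,
      add_zero]
  have h : HeightLE 1 ({w | ∃ r : α → Fin n, (∑ a : α, (r a : ℕ) • χ a ∈ S) ∧
      ∀ a, (n : ℤ) ∣ (w.count a : ℤ) - (r a : ℕ)} : Language α) := by
    refine HeightLE.exists_finite (p := fun (r : α → Fin n) w =>
      (∑ a : α, (r a : ℕ) • χ a ∈ S) ∧ ∀ a, (n : ℤ) ∣ (w.count a : ℤ) - (r a : ℕ)) ?_
    intro r
    refine HeightLE.and (p := fun _ => ∑ a : α, (r a : ℕ) • χ a ∈ S)
      (q := fun w => ∀ a, (n : ℤ) ∣ (w.count a : ℤ) - (r a : ℕ)) (HeightLE.const 1 _) ?_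
    refine HeightLE.forall_finite (p := fun a w => (n : ℤ) ∣ (w.count a : ℤ) - (r a : ℕ)) ?_
    intro a
    have hc := cnt_count a n hn0 (r a : ℕ)
    convert hc using 6
  refine h.congr ?_
  intro w
  constructor
  · rintro ⟨r, hr, hc⟩
    rw [sum_map_eq_sum_count]
    have e : ∑ a : α, w.count a • χ a = ∑ a : α, (r a : ℕ) • χ a := by
      refine Finset.sum_congr rfl (fun a _ => hmod _ _ _ ?_)
      convert hc a
    rwa [e]
  · intro hw
    rw [sum_map_eq_sum_count] at hw
    refine ⟨fun a => ⟨w.count a % n, Nat.mod_lt _ hn0⟩, ?_, ?_⟩
    · have e : ∑ a : α, w.count a • χ a = ∑ a : α, (w.count a % n) • χ a := by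
        refine Finset.sum_congr rfl (fun a _ => hmod _ _ _ ?_)
        push_cast
        exact Int.dvd_self_sub_emod
      simp only
      rw [e] at hw
      convert hw
    · intro a
      push_cast
      exact Int.dvd_self_sub_emod

end Vale.Agent.P329
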