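import Vale.Agent.Lib.P329.Pairs

/-!
For `p` prime, the number of times a letter is read in a given state of an automaton on `ZMod p`.
-/

namespace Vale.Agent.P329

/-- A run of a total automaton, as a partial automaton. -/
theorem prun_total {Q α : Type} (d : Q → α → Q) (q : Q) (w : List α) :
    prun (fun q a => some (d q a)) q w = some (w.foldl d q) := by
  induction w generalizing q with
  | nil => rfl
  | cons a w ih => exact ih (d q a)

open Classical in
/-- The automaton remembering the last letter of nonzero weight. -/
noncomputable def lastStep {α : Type} {p : ℕ} (χ : α → ZMod p) (m : Option α) (a : α) : Option α :=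
  if χ a = 0 then m else some a

theorem lastStep_dichotomy {α : Type} {p : ℕ} (χ : α → ZMod p) (w : List α) :
    (∀ m, w.foldl (lastStep χ) m = m) ∨ ∃ c, ∀ m, w.foldl (lastStep χ) m = c := by
  induction w with
  | nil => exact Or.inl fun m => rfl
  | cons a w ih =>
    rcases ih with h | ⟨c, h⟩
    · by_cases ha : χ a = 0
      · left
        intro m
        rw [List.foldl_cons, h, lastStep, if_pos ha]
      · right
        refine ⟨some a, fun m => ?_⟩
        rw [List.foldl_cons, h, lastStep, if_neg ha]
    · exact Or.inr ⟨c, fun m => h _⟩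

theorem foldl_flatten_replicate {Q α : Type} (d : Q → α → Q) (w : List α)
    (h : (∀ m, w.foldl d m = m) ∨ ∃ c, ∀ m, w.foldl d m = c) (m : Q) (n : ℕ) (hn : 0 < n) :
    (List.replicate n w).flatten.foldl d m = w.foldl d m := by
  induction n generalizing m with
  | zero => omega
  | succ n ih =>
    rw [List.replicate_succ, List.flatten_cons, List.foldl_append]
    rcases Nat.eq_zero_or_pos n with rfl | hn'
    · rfl
    · rw [ih _ hn']
      rcases h with h | ⟨c, h⟩
      · rw [h]
      · rw [h, h]

theorem counterFree_last {α : Type} {p : ℕ} (χ : α → ZMod p) :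
    CounterFree (fun m a => some (lastStep χ m a)) := by
  intro q w n hn h
  rw [prun_total] at h ⊢
  rw [foldl_flatten_replicate _ _ (lastStep_dichotomy χ w) q n hn] at h
  exact h

theorem memStep_foldl_fst {α : Type} {p : ℕ} (χ : α → ZMod p) (w : List α)
    (q : ZMod p × Option α) : (w.foldl (memStep χ) q).1 = q.1 + (w.map χ).sum := by
  induction w generalizing q with
  | nil => simp
  | cons a w ih =>
    rw [List.foldl_cons, ih, List.map_cons, List.sum_cons, ← add_assoc]
    congr 1
    unfold memStep
    split_ifs with h
    · rw [h, add_zero]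
    · rfl

theorem memStep_foldl_snd {α : Type} {p : ℕ} (χ : α → ZMod p) (w : List α)
    (q : ZMod p × Option α) : (w.foldl (memStep χ) q).2 = w.foldl (lastStep χ) q.2 := by
  induction w generalizing q with
  | nil => simp
  | cons a w ih =>
    rw [List.foldl_cons, ih, List.foldl_cons]
    congr 1
    unfold memStep lastStep
    split_ifs with h
    · rfl
    · rfl

section first

/-- The automaton detecting a letter of nonzero weight. -/
noncomputable def firstStep {α : Type} {p : ℕ} (χ : α → ZMod p) (m : Bool) (a : α) : Bool :=
  m || decide (χ a ≠ 0)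

theorem prun_first_true {α : Type} {p : ℕ} (χ : α → ZMod p) (b : α) (w : List α) :
    prun (forbid (firstStep χ) (fun q a => q = false ∧ a = b)) true w = some true := by
  induction w with
  | nil => rfl
  | cons a w ih =>
    have h : forbid (firstStep χ) (fun q a => q = false ∧ a = b) true a = some true := by
      simp [forbid, firstStep]
    rw [prun, h]
    exact ih

theorem prun_first_false {α : Type} {p : ℕ} (χ : α → ZMod p) (b : α) (w w' : List α)
    (h : prun (forbid (firstStep χ) (fun q a => q = false ∧ a = b)) false (w ++ w') =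
      some false) :
    prun (forbid (firstStep χ) (fun q a => q = false ∧ a = b)) false w = some false := by
  rw [prun_append] at h
  cases hq : prun (forbid (firstStep χ) (fun q a => q = false ∧ a = b)) false w with
  | none => rw [hq] at h; simp at h
  | some x =>
    cases x with
    | false => rfl
    | true =>
      rw [hq] at h
      simp only [Option.bind_some] at h
      rw [prun_first_true] at h
      simp at h

theorem counterFree_first {α : Type} {p : ℕ} (χ : α → ZMod p) (b : α) :
    CounterFree (forbid (firstStep χ) (fun q a => q = false ∧ a = b)) := by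
  intro q w n hn h
  cases q with
  | true => exact prun_first_true χ b w
  | false =>
    obtain ⟨m, rfl⟩ := Nat.exists_eq_succ_of_ne_zero hn.ne'
    rw [List.replicate_succ, List.flatten_cons] at h
    exact prun_first_false χ b w _ h

/-- The event: the first letter of nonzero weight is `b`, read in the state `u`. -/
def evF {α : Type} {p : ℕ} (b : α) (u : ZMod p) (q : ZMod p × Option α) (a : α) : Prop :=
  a = b ∧ q.2 = none ∧ q.1 = u

theorem events_evF_some {α : Type} {p : ℕ} (χ : α → ZMod p) (b : α) (u : ZMod p) (w : List α) :
    ∀ q : ZMod p × Option α, q.2 ≠ none → events (memStep χ) (evF b u) q w = 0 := by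
  induction w with
  | nil => intro q _; rfl
  | cons a w ih =>
    intro q hq
    have h1 : ¬ evF b u q a := fun h => hq h.2.1
    rw [events, if_neg h1, ih]
    · simp
    · unfold memStep
      split_ifs
      · exact hq
      · simp

theorem events_evF_none {α : Type} {p : ℕ} (χ : α → ZMod p) (b : α) (hb : χ b ≠ 0) (u t : ZMod p)
    (w : List α) : events (memStep χ) (evF b u) (t, none) w =
      if t = u then events (firstStep χ) (fun q a => q = false ∧ a = b) false w else 0 := by
  have htrue : ∀ w : List α, events (firstStep χ) (fun q a => q = false ∧ a = b) true w = 0 := by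
    intro w
    induction w with
    | nil => rfl
    | cons a w ih =>
      rw [events, if_neg (by simp)]
      have : firstStep χ true a = true := by simp [firstStep]
      rw [this, ih]
      simp
  induction w with
  | nil => simp [events]
  | cons a w ih =>
    by_cases ha : χ a = 0
    · have hab : a ≠ b := by
        rintro rfl
        exact hb ha
      have h1 : ¬ evF b u (t, none) a := fun h => hab h.1
      have h2 : memStep χ (t, none) a = (t, none) := by simp [memStep, ha]
      have h3 : firstStep χ false a = false := by simp [firstStep, ha]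
      have h4 : ¬ (false = false ∧ a = b) := fun h => hab h.2
      rw [events, if_neg h1, h2, ih, events, if_neg h4, h3]
      simp
    · have h2 : memStep χ (t, none) a = (t + χ a, some a) := by simp [memStep, ha]
      have h3 : firstStep χ false a = true := by simp [firstStep, ha]
      rw [events, h2, events_evF_some χ b u w _ (by simp), events, h3, htrue]
      by_cases hab : a = b
      · by_cases htu : t = u
        · rw [if_pos ⟨hab, rfl, htu⟩, if_pos htu, if_pos ⟨rfl, hab⟩]
        · rw [if_neg (fun h => htu h.2.2), if_neg htu]
          simp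
      · rw [if_neg (fun h => hab h.1), if_neg (fun h : false = false ∧ a = b => hab h.2)]
        simp

end first

variable {α : Type} [Finite α] {p : ℕ} [Fact p.Prime]

theorem cnt_first (χ : α → ZMod p) (b : α) (hb : χ b ≠ 0) (u t : ZMod p) :
    Cnt (events (memStep χ) (evF b u) (t, none)) := by
  by_cases htu : t = u
  · refine Cnt.congr (cnt_events (firstStep χ) (fun q a => q = false ∧ a = b) true ?_
      (counterFree_first χ b) false) fun w => ?_
    · rintro q a ⟨rfl, rfl⟩
      simp [firstStep, hb]
    · rw [events_evF_none χ b hb, if_pos htu]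
  · refine Cnt.congr (Cnt.const 0) fun w => ?_
    rw [events_evF_none χ b hb, if_neg htu]

open Classical in
/-- the potential -/
noncomputable def phi (b : α) (u : ZMod p) (q : ZMod p × Option α) : ℤ :=
  if q.2 = some b ∧ q.1 = u then 1 else 0

theorem cnt_phi (χ : α → ZMod p) (b : α) (u t : ZMod p) :
    Cnt (fun w : List α => phi b u (w.foldl (memStep χ) (t, none))) := by
  refine Cnt.congr (Cnt.indicator (p := fun w : List α =>
    (w.foldl (memStep χ) (t, none)).2 = some b ∧ (w.foldl (memStep χ) (t, none)).1 = u) ?_)
    fun w => by unfold phi; split_ifs <;> rfl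
  refine HeightLE.and ?_ ?_
  · refine HeightLE.congr (HeightLE.mono (Nat.zero_le 1)
      ((counterFree_last χ).starFree none (some b))) fun w => ?_
    rw [prun_total, memStep_foldl_snd]
    simp
  · refine HeightLE.congr (height_abelian χ {x | t + x = u}) fun w => ?_
    rw [memStep_foldl_fst]
    rfl

omit [Finite α] in
open Classical in
theorem visits_key [Fintype α] (χ : α → ZMod p) (b : α) (hb : χ b ≠ 0) (s : ZMod p) (c : α)
    (q : ZMod p × Option α) (hq : ∀ y, q.2 = some y → χ y ≠ 0) :
    (if c = b ∧ q.1 = s + χ b then (1 : ℤ) else 0) - (if c = b ∧ q.1 = s then 1 else 0) =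
        (∑ y ∈ Finset.univ.filter (fun y => y ≠ b ∧ χ y ≠ 0),
          (if c = b ∧ q.2 = some y ∧ q.1 + χ c = s + χ b + χ b then (1 : ℤ) else 0)) +
        (if c = b ∧ q.2 = none ∧ q.1 = s + χ b then 1 else 0) -
        (∑ y ∈ Finset.univ.filter (fun y => y ≠ b ∧ χ y ≠ 0),
          (if c = y ∧ q.2 = some b ∧ q.1 + χ c = s + χ b + χ y then (1 : ℤ) else 0)) +
        phi b (s + χ b) q - phi b (s + χ b) (memStep χ q c) := by
  by_cases hcb : c = b
  · subst hcb
    have hS2 : ∑ y ∈ Finset.univ.filter (fun y => y ≠ c ∧ χ y ≠ 0),
        (if c = y ∧ q.2 = some c ∧ q.1 + χ c = s + χ c + χ y then (1 : ℤ) else 0) = 0 := by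
      refine Finset.sum_eq_zero fun y hy => ?_
      rw [if_neg]
      rintro ⟨rfl, -⟩
      exact (Finset.mem_filter.1 hy).2.1 rfl
    have hphi' : phi c (s + χ c) (memStep χ q c) = if q.1 = s then 1 else 0 := by
      unfold phi memStep
      rw [if_neg hb]
      simp
    rw [hS2, hphi']
    rcases hm : q.2 with _ | y'
    · have hS1 : ∑ y ∈ Finset.univ.filter (fun y => y ≠ c ∧ χ y ≠ 0),
          (if c = c ∧ (none : Option α) = some y ∧ q.1 + χ c = s + χ c + χ c then (1 : ℤ) else 0)
            = 0 := by
        refine Finset.sum_eq_zero fun y _ => ?_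
        rw [if_neg]
        rintro ⟨-, h, -⟩
        exact absurd h (by simp)
      have hphi : phi c (s + χ c) q = 0 := by
        unfold phi
        rw [if_neg]
        rintro ⟨h, -⟩
        rw [hm] at h
        exact absurd h (by simp)
      rw [hS1, hphi]
      simp
    · by_cases hy' : y' = c
      · subst hy'
        have hS1 : ∑ y ∈ Finset.univ.filter (fun y => y ≠ y' ∧ χ y ≠ 0),
            (if y' = y' ∧ some y' = some y ∧ q.1 + χ y' = s + χ y' + χ y' then (1 : ℤ) else 0)
              = 0 := by
          refine Finset.sum_eq_zero fun y hy => ?_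
          rw [if_neg]
          rintro ⟨-, h, -⟩
          exact (Finset.mem_filter.1 hy).2.1 (Option.some_injective _ h).symm
        have hphi : phi y' (s + χ y') q = if q.1 = s + χ y' then 1 else 0 := by
          unfold phi
          rw [hm]
          simp
        rw [hS1, hphi]
        simp
      · have hS1 : ∑ y ∈ Finset.univ.filter (fun y => y ≠ c ∧ χ y ≠ 0),
            (if c = c ∧ some y' = some y ∧ q.1 + χ c = s + χ c + χ c then (1 : ℤ) else 0)
              = if q.1 = s + χ c then 1 else 0 := by
          rw [Finset.sum_eq_single y']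
          · simp
          · intro y _ hne
            rw [if_neg]
            rintro ⟨-, h, -⟩
            exact hne (Option.some_injective _ h).symm
          · intro h
            exact absurd (Finset.mem_filter.2 ⟨Finset.mem_univ _, hy', hq y' hm⟩) h
        have hphi : phi c (s + χ c) q = 0 := by
          unfold phi
          rw [if_neg]
          rintro ⟨h, -⟩
          rw [hm] at h
          exact hy' (Option.some_injective _ h)
        rw [hS1, hphi]
        simp
  · have hS1 : ∑ y ∈ Finset.univ.filter (fun y => y ≠ b ∧ χ y ≠ 0),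
        (if c = b ∧ q.2 = some y ∧ q.1 + χ c = s + χ b + χ b then (1 : ℤ) else 0) = 0 :=
      Finset.sum_eq_zero fun y _ => if_neg fun h => hcb h.1
    rw [hS1, if_neg (fun h : c = b ∧ q.1 = s + χ b => hcb h.1),
      if_neg (fun h : c = b ∧ q.1 = s => hcb h.1),
      if_neg (fun h : c = b ∧ q.2 = none ∧ q.1 = s + χ b => hcb h.1)]
    by_cases hc0 : χ c = 0
    · have hS2 : ∑ y ∈ Finset.univ.filter (fun y => y ≠ b ∧ χ y ≠ 0),
          (if c = y ∧ q.2 = some b ∧ q.1 + χ c = s + χ b + χ y then (1 : ℤ) else 0) = 0 := by
        refine Finset.sum_eq_zero fun y hy => ?_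
        rw [if_neg]
        rintro ⟨rfl, -⟩
        exact (Finset.mem_filter.1 hy).2.2 hc0
      have hmem : memStep χ q c = q := by
        unfold memStep
        rw [if_pos hc0]
      rw [hS2, hmem]
      ring
    · have hS2 : ∑ y ∈ Finset.univ.filter (fun y => y ≠ b ∧ χ y ≠ 0),
          (if c = y ∧ q.2 = some b ∧ q.1 + χ c = s + χ b + χ y then (1 : ℤ) else 0) =
            phi b (s + χ b) q := by
        rw [Finset.sum_eq_single c]
        · unfold phi
          refine if_congr ?_ rfl rfl
          simp
        · intro y _ hne
          rw [if_neg]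
          rintro ⟨h, -⟩
          exact hne h.symm
        · intro h
          exact absurd (Finset.mem_filter.2 ⟨Finset.mem_univ _, hcb, hc0⟩) h
      have hphi' : phi b (s + χ b) (memStep χ q c) = 0 := by
        unfold phi memStep
        rw [if_neg hc0, if_neg]
        rintro ⟨h, -⟩
        exact hcb (Option.some_injective _ h)
      rw [hS2, hphi']
      ring

omit [Finite α] in
open Classical in
/-- The telescoping identity. -/
theorem visits_diff_eq [Fintype α] (χ : α → ZMod p) (b : α) (hb : χ b ≠ 0) (s : ZMod p)
    (w : List α) : ∀ q : ZMod p × Option α, (∀ y, q.2 = some y → χ y ≠ 0) →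
    visits χ b (s + χ b) q.1 w - visits χ b s q.1 w =
      (∑ y ∈ Finset.univ.filter (fun y => y ≠ b ∧ χ y ≠ 0), pairs χ y b (s + χ b + χ b) q w) +
        events (memStep χ) (evF b (s + χ b)) q w -
        (∑ y ∈ Finset.univ.filter (fun y => y ≠ b ∧ χ y ≠ 0), pairs χ b y (s + χ b + χ y) q w) -
        phi b (s + χ b) (w.foldl (memStep χ) q) + phi b (s + χ b) q := by
  induction w with
  | nil =>
    intro q _
    simp [visits, pairs, events]
  | cons c w ih =>
    intro q hq
    have hq' : ∀ y, (memStep χ q c).2 = some y → χ y ≠ 0 := by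
      intro y
      unfold memStep
      split_ifs with h
      · exact hq y
      · intro h1
        rw [← Option.some_injective _ h1]
        exact h
    have h1 := ih (memStep χ q c) hq'
    have hfst : (memStep χ q c).1 = q.1 + χ c := by
      unfold memStep
      split_ifs with h
      · rw [h, add_zero]
      · rfl
    rw [hfst] at h1
    rw [List.foldl_cons]
    have e1 : ∀ u, visits χ b u q.1 (c :: w) = (if c = b ∧ q.1 = u then 1 else 0) +
        visits χ b u (q.1 + χ c) w := fun u => by
      rw [visits]
      congr 1
      split_ifs <;> rfl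
    have e2 : ∀ y z u, pairs χ y z u q (c :: w) =
        (if c = z ∧ q.2 = some y ∧ q.1 + χ c = u then 1 else 0) +
          pairs χ y z u (memStep χ q c) w := fun y z u => by
      unfold pairs
      rw [events]
      congr 1
      split_ifs <;> rfl
    have e3 : events (memStep χ) (evF b (s + χ b)) q (c :: w) =
        (if c = b ∧ q.2 = none ∧ q.1 = s + χ b then 1 else 0) +
          events (memStep χ) (evF b (s + χ b)) (memStep χ q c) w := by
      rw [events]
      congr 1
      unfold evF
      split_ifs <;> rfl
    simp only [e1, e2, e3, Finset.sum_add_distrib]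
    have key : (if c = b ∧ q.1 = s + χ b then (1 : ℤ) else 0) - (if c = b ∧ q.1 = s then 1 else 0) =
        (∑ y ∈ Finset.univ.filter (fun y => y ≠ b ∧ χ y ≠ 0),
          (if c = b ∧ q.2 = some y ∧ q.1 + χ c = s + χ b + χ b then (1 : ℤ) else 0)) +
        (if c = b ∧ q.2 = none ∧ q.1 = s + χ b then 1 else 0) -
        (∑ y ∈ Finset.univ.filter (fun y => y ≠ b ∧ χ y ≠ 0),
          (if c = y ∧ q.2 = some b ∧ q.1 + χ c = s + χ b + χ y then (1 : ℤ) else 0)) +
        phi b (s + χ b) q - phi b (s + χ b) (memStep χ q c) :=
      visits_key χ b hb s c q hq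
    linarith

/-- The difference of the numbers of visits in two consecutive states. -/
theorem cnt_visits_diff (χ : α → ZMod p) (b : α) (hb : χ b ≠ 0) (s t : ZMod p) :
    Cnt (fun w => visits χ b (s + χ b) t w - visits χ b s t w) := by
  classical
  have _ := Fintype.ofFinite α
  refine Cnt.congr (f := fun w =>
    (∑ y ∈ Finset.univ.filter (fun y => y ≠ b ∧ χ y ≠ 0),
      pairs χ y b (s + χ b + χ b) (t, none) w) +
      events (memStep χ) (evF b (s + χ b)) (t, none) w -
      (∑ y ∈ Finset.univ.filter (fun y => y ≠ b ∧ χ y ≠ 0),
        pairs χ b y (s + χ b + χ y) (t, none) w) -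
      phi b (s + χ b) (w.foldl (memStep χ) (t, none))) ?_ fun w => ?_
  · refine Cnt.sub (Cnt.sub (Cnt.add (Cnt.sum _ fun y hy => ?_) (cnt_first χ b hb _ _))
      (Cnt.sum _ fun y hy => ?_)) (cnt_phi χ b _ _)
    · have hy' := (Finset.mem_filter.1 hy).2
      exact cnt_pairs χ y b hy'.1 hy'.2 hb _ _
    · have hy' := (Finset.mem_filter.1 hy).2
      exact cnt_pairs χ b y (Ne.symm hy'.1) hb hy'.2 _ _
  · have h := visits_diff_eq χ b hb s w (t, none) (by simp)
    have h0 : phi b (s + χ b) ((t, none) : ZMod p × Option α) = 0 := by simp [phi]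
    rw [h0, add_zero] at h
    exact h.symm

theorem cnt_visits_zmod (χ : α → ZMod p) (b : α) (s t : ZMod p) : Cnt (visits χ b s t) := by
  classical
  by_cases hb : χ b = 0
  · exact cnt_visits_neutral χ b hb s t
  have hk : ∀ k : ℕ, Cnt (fun w => visits χ b (s + (k : ZMod p) * χ b) t w -
      visits χ b s t w) := by
    intro k
    induction k with
    | zero =>
      refine Cnt.congr (Cnt.const 0) fun w => ?_
      simp
    | succ k ih =>
      refine Cnt.congr (Cnt.add (cnt_visits_diff χ b hb (s + (k : ZMod p) * χ b) t) ih)
        fun w => ?_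
      have : s + (k : ZMod p) * χ b + χ b = s + ((k + 1 : ℕ) : ZMod p) * χ b := by
        push_cast
        ring
      rw [this]
      ring
  have hx : ∀ x : ZMod p, Cnt (fun w => visits χ b (s + x * χ b) t w - visits χ b s t w) := by
    intro x
    have := hk x.val
    rwa [ZMod.natCast_zmod_val] at this
  have hp : (p : ℤ) ≠ 0 := by
    exact_mod_cast (Fact.out : p.Prime).ne_zero
  refine Cnt.of_const_mul (c := (p : ℤ)) hp ?_
  refine Cnt.congr (Cnt.sub (cnt_count b) (Cnt.sum Finset.univ fun x _ => hx x)) fun w => ?_
  rw [Finset.sum_sub_distrib]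
  have h1 : ∑ x : ZMod p, visits χ b (s + x * χ b) t w = (w.count b : ℤ) := by
    rw [← sum_visits χ b t w]
    refine Fintype.sum_bijective (fun x : ZMod p => s + x * χ b) ?_ _ _ fun x => rfl
    refine Finite.injective_iff_bijective.1 ?_
    intro x y hxy
    have := add_left_cancel hxy
    exact mul_right_cancel₀ hb this
  rw [h1]
  simp [ZMod.card]

end Vale.Agent.P329
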